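/-
P090: spectral gap of translations and shears of the discrete torus `(ℤ/N)²`.
-/
import Mathlib

namespace Vale.Agent.P090

open Finset Function
open scoped ComplexConjugate

/-- The four moves of `R²`. -/
def step {R : Type*} [CommRing R] : Fin 4 → (R × R) ≃ (R × R)
  | 0 => ⟨fun v => (v.1 + 1, v.2), fun v => (v.1 - 1, v.2), fun v => by simp, fun v => by simp⟩
  | 1 => ⟨fun v => (v.1, v.2 + 1), fun v => (v.1, v.2 - 1), fun v => by simp, fun v => by simp⟩
  | 2 => ⟨fun v => (v.1 + v.2, v.2), fun v => (v.1 - v.2, v.2), fun v => by simp, fun v => by simp⟩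
  | 3 => ⟨fun v => (v.1, v.1 + v.2), fun v => (v.1, v.2 - v.1), fun v => by simp, fun v => by simp⟩

lemma step_map {R S : Type*} [CommRing R] [CommRing S] (e : R →+* S) (i : Fin 4) (v : R × R) :
    step i (e v.1, e v.2) = (e (step i v).1, e (step i v).2) := by
  fin_cases i <;> simp [step]

section Core

variable {Z : Type*} [Fintype Z] [DecidableEq Z]

lemma sum_image_le {G : Z → ℝ} (hG : ∀ z, 0 ≤ G z) (S P : Finset Z) (U V : Z ≃ Z)
    (hU : ∀ z ∈ S, U z ∈ P) (hV : ∀ z ∈ S, V z ∈ P) (hUV : ∀ z ∈ S, ∀ w ∈ S, U z ≠ V w) :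
    ∑ z ∈ S, G (U z) + ∑ z ∈ S, G (V z) ≤ ∑ z ∈ P, G z := by
  have hd : Disjoint (S.map U.toEmbedding) (S.map V.toEmbedding) := by
    rw [Finset.disjoint_left]
    intro a ha hb
    obtain ⟨z, hz, rfl⟩ := mem_map.mp ha
    obtain ⟨w, hw, e⟩ := mem_map.mp hb
    exact hUV z hz w hw e.symm
  have := sum_le_sum_of_subset_of_nonneg (f := G)
    (s := S.map U.toEmbedding ∪ S.map V.toEmbedding) (t := P) (by
      intro a ha
      rcases mem_union.mp ha with h | h <;> obtain ⟨z, hz, rfl⟩ := mem_map.mp h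
      · exact hU z hz
      · exact hV z hz) (fun z _ _ => hG z)
  rw [sum_union hd, sum_map, sum_map] at this
  exact this

lemma sum_move {G : Z → ℝ} {η : ℝ} (S : Finset Z) (U : Z ≃ Z)
    (hη : ∑ z, |G (U z) - G z| ≤ η) : ∑ z ∈ S, G z ≤ ∑ z ∈ S, G (U z) + η := by
  have h1 : ∑ z ∈ S, (G z - G (U z)) ≤ ∑ z ∈ S, |G (U z) - G z| :=
    sum_le_sum fun z _ => by rw [abs_sub_comm]; exact le_abs_self _
  have h2 : ∑ z ∈ S, |G (U z) - G z| ≤ ∑ z, |G (U z) - G z| :=
    sum_le_sum_of_subset_of_nonneg (subset_univ S) fun z _ _ => abs_nonneg _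
  rw [sum_sub_distrib] at h1
  linarith

/-- The combinatorial form: a function nearly invariant under two shears lives near the boundary. -/
lemma pingpong {G : Z → ℝ} (hG : ∀ z, 0 ≤ G z) (a b : Z → ℤ) (C : Z → Prop) [DecidablePred C]
    (zero : ∀ z, a z = 0 → b z = 0 → G z = 0) (U V : Z ≃ Z)
    (hU : ∀ z, C z → a (U z) = a z + b z ∧ b (U z) = b z)
    (hV : ∀ z, C z → a (V z) = a z ∧ b (V z) = a z + b z)
    (hU' : ∀ z, C z → a (U.symm z) = a z - b z ∧ b (U.symm z) = b z)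
    (hV' : ∀ z, C z → a (V.symm z) = a z ∧ b (V.symm z) = b z - a z)
    {η : ℝ} (ηU : ∑ z, |G (U z) - G z| ≤ η) (ηV : ∑ z, |G (V z) - G z| ≤ η) :
    ∑ z, G z ≤ 18 * ∑ z ∈ univ.filter (fun z => ¬ C z), G z + 18 * η := by
  have inv : ∀ W : Z ≃ Z, ∑ z, |G (W z) - G z| ≤ η → ∑ z, |G (W.symm z) - G z| ≤ η := by
    intro W h
    rw [← Equiv.sum_comp W]
    simpa [abs_sub_comm] using h
  set O := ∑ z ∈ univ.filter (fun z => ¬ C z), G z
  have quad : ∀ (P : Z → Prop) [DecidablePred P] (A B : Z ≃ Z),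
      ∑ z, |G (A z) - G z| ≤ η → ∑ z, |G (B z) - G z| ≤ η →
      (∀ z, C z → P z → P (A z) ∧ P (B z)) →
      (∀ z w, C z → P z → C w → P w → A z ≠ B w) →
      ∑ z ∈ univ.filter P, G z ≤ 2 * O + 2 * η := by
    intro P _ A B hA hB hmem hne
    set S := univ.filter fun z => P z ∧ C z
    have h1 := sum_image_le hG S (univ.filter P) A B
      (fun z hz => by simp [S] at hz; simp [hmem z hz.2 hz.1])
      (fun z hz => by simp [S] at hz; simp [hmem z hz.2 hz.1])
      (fun z hz w hw => by simp [S] at hz hw; exact hne z w hz.2 hz.1 hw.2 hw.1)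
    have h2 := sum_move S A hA
    have h3 := sum_move S B hB
    have h4 : ∑ z ∈ univ.filter P, G z ≤ ∑ z ∈ S, G z + O := by
      simp only [O, S, sum_filter, ← sum_add_distrib]
      refine sum_le_sum fun z _ => ?_
      have := hG z
      by_cases hP : P z <;> by_cases hC : C z <;> simp [hP, hC, this]
    linarith
  have q1 := quad (fun z => 0 < a z ∧ 0 < b z) U V ηU ηV
    (fun z h hp => by have := hU z h; have := hV z h; constructor <;> constructor <;> omega)
    (fun z w h hp h' hp' e => by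
      have := hU z h; have := hV w h'; have := congrArg a e; have := congrArg b e; omega)
  have q2 := quad (fun z => a z < 0 ∧ b z < 0) U V ηU ηV
    (fun z h hp => by have := hU z h; have := hV z h; constructor <;> constructor <;> omega)
    (fun z w h hp h' hp' e => by
      have := hU z h; have := hV w h'; have := congrArg a e; have := congrArg b e; omega)
  have q3 := quad (fun z => 0 < a z ∧ b z < 0) U.symm V.symm (inv U ηU) (inv V ηV)
    (fun z h hp => by have := hU' z h; have := hV' z h; constructor <;> constructor <;> omega)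
    (fun z w h hp h' hp' e => by
      have := hU' z h; have := hV' w h'; have := congrArg a e; have := congrArg b e; omega)
  have q4 := quad (fun z => a z < 0 ∧ 0 < b z) U.symm V.symm (inv U ηU) (inv V ηV)
    (fun z h hp => by have := hU' z h; have := hV' z h; constructor <;> constructor <;> omega)
    (fun z w h hp h' hp' e => by
      have := hU' z h; have := hV' w h'; have := congrArg a e; have := congrArg b e; omega)
  have diag : ∀ W : Z ≃ Z, ∑ z, |G (W z) - G z| ≤ η → ∀ (S : Finset Z),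
      (∀ z ∈ S, 0 < a (W z) ∧ 0 < b (W z) ∨ a (W z) < 0 ∧ b (W z) < 0) →
      ∑ z ∈ S, G z ≤ ∑ z ∈ univ.filter (fun z => 0 < a z ∧ 0 < b z), G z
        + ∑ z ∈ univ.filter (fun z => a z < 0 ∧ b z < 0), G z + η := by
    intro W hW S hS
    refine (sum_move S W hW).trans (add_le_add ?_ le_rfl)
    refine le_of_eq_of_le (sum_map S W.toEmbedding G).symm ?_
    rw [← sum_union (by rw [Finset.disjoint_filter]; intro z _ h; omega)]
    refine sum_le_sum_of_subset_of_nonneg (fun z hz => ?_) (fun z _ _ => hG z)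
    obtain ⟨w, hw, rfl⟩ := mem_map.mp hz
    simpa using hS w hw
  have x1 := diag V ηV (univ.filter fun z => C z ∧ b z = 0 ∧ a z ≠ 0) (fun z hz => by
    simp at hz; have := hV z hz.1; omega)
  have x2 := diag U ηU (univ.filter fun z => C z ∧ a z = 0 ∧ b z ≠ 0) (fun z hz => by
    simp at hz; have := hU z hz.1; omega)
  have cover : ∑ z, G z ≤ O + ∑ z ∈ univ.filter (fun z => C z ∧ b z = 0 ∧ a z ≠ 0), G z
      + ∑ z ∈ univ.filter (fun z => C z ∧ a z = 0 ∧ b z ≠ 0), G z
      + ∑ z ∈ univ.filter (fun z => 0 < a z ∧ 0 < b z), G z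
      + ∑ z ∈ univ.filter (fun z => a z < 0 ∧ b z < 0), G z
      + ∑ z ∈ univ.filter (fun z => 0 < a z ∧ b z < 0), G z
      + ∑ z ∈ univ.filter (fun z => a z < 0 ∧ 0 < b z), G z := by
    simp only [O, sum_filter, ← sum_add_distrib]
    refine sum_le_sum fun z _ => ?_
    have g := hG z
    by_cases hC : C z
    · by_cases h0 : a z = 0 ∧ b z = 0
      · simp [zero z h0.1 h0.2]
      · simp only [hC, not_true, if_false, true_and, zero_add]
        split_ifs <;> first | linarith | (exfalso; omega)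
    · simp [hC]; split_ifs <;> linarith
  have hη : 0 ≤ η := (sum_nonneg fun z _ => abs_nonneg _).trans ηU
  have hO : 0 ≤ O := sum_nonneg fun z _ => hG z
  linarith

end Core

/-- The Fourier transform on the discrete torus. -/
noncomputable def four {N : ℕ} [NeZero N] (f : ZMod N × ZMod N → ℝ) (z : ZMod N × ZMod N) : ℂ :=
  ∑ v, (f v : ℂ) * ZMod.stdAddChar (-(z.1 * v.1 + z.2 * v.2))

section Fourier

variable {N : ℕ} [NeZero N]

lemma plancherel (f : ZMod N × ZMod N → ℝ) :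
    ∑ z, ‖four f z‖ ^ 2 = (N : ℝ) ^ 2 * ∑ v, f v ^ 2 := by
  have orth : ∀ v w : ZMod N × ZMod N,
      ∑ z : ZMod N × ZMod N, ZMod.stdAddChar (-(z.1 * v.1 + z.2 * v.2)) *
        conj (ZMod.stdAddChar (-(z.1 * w.1 + z.2 * w.2)))
      = if v = w then ((N : ℂ) ^ 2) else 0 := by
    intro v w
    have e : ∀ z : ZMod N × ZMod N, ZMod.stdAddChar (-(z.1 * v.1 + z.2 * v.2)) *
        conj (ZMod.stdAddChar (-(z.1 * w.1 + z.2 * w.2)))
        = ZMod.stdAddChar (z.1 * (w.1 - v.1)) * ZMod.stdAddChar (z.2 * (w.2 - v.2)) := by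
      intro z
      rw [← AddChar.map_neg_eq_conj, ← AddChar.map_add_eq_mul, ← AddChar.map_add_eq_mul]
      congr 1; ring
    rw [sum_congr rfl fun z _ => e z, Fintype.sum_prod_type]
    dsimp only
    rw [← sum_mul_sum,
      AddChar.sum_mulShift _ (ZMod.isPrimitive_stdAddChar N),
      AddChar.sum_mulShift _ (ZMod.isPrimitive_stdAddChar N)]
    simp only [ZMod.card, sub_eq_zero, Prod.ext_iff]
    by_cases h1 : w.1 = v.1 <;> by_cases h2 : w.2 = v.2 <;>
      simp [h1, h2, Ne.symm, eq_comm, sq]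
  have key : ((∑ z, ‖four f z‖ ^ 2 : ℝ) : ℂ) = (((N : ℝ) ^ 2 * ∑ v, f v ^ 2 : ℝ) : ℂ) := by
    push_cast
    simp only [← Complex.mul_conj', four, map_sum, map_mul, Complex.conj_ofReal, sum_mul_sum]
    rw [sum_comm, mul_sum]
    refine sum_congr rfl fun v _ => ?_
    rw [sum_comm]
    simp only [mul_mul_mul_comm (f v : ℂ), ← mul_sum, orth, mul_ite, mul_zero]
    rw [sum_ite_eq]
    simp; ring
  exact_mod_cast key

lemma four_sub (f g : ZMod N × ZMod N → ℝ) (z : ZMod N × ZMod N) :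
    four (fun v => f v - g v) z = four f z - four g z := by
  simp [four, sub_mul, sum_sub_distrib]

lemma four_step0 (f : ZMod N × ZMod N → ℝ) (z : ZMod N × ZMod N) :
    four (fun v => f (step 0 v)) z = ZMod.stdAddChar z.1 * four f z := by
  rw [four, four, mul_sum]
  refine Fintype.sum_equiv (step 0) _ _ fun v => ?_
  rw [mul_left_comm, ← AddChar.map_add_eq_mul]
  congr 2
  simp [step]; ring

lemma four_step1 (f : ZMod N × ZMod N → ℝ) (z : ZMod N × ZMod N) :
    four (fun v => f (step 1 v)) z = ZMod.stdAddChar z.2 * four f z := by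
  rw [four, four, mul_sum]
  refine Fintype.sum_equiv (step 1) _ _ fun v => ?_
  rw [mul_left_comm, ← AddChar.map_add_eq_mul]
  congr 2
  simp [step]; ring

lemma four_step2 (f : ZMod N × ZMod N → ℝ) (z : ZMod N × ZMod N) :
    four (fun v => f (step 2 v)) z = four f ((step 3).symm z) := by
  rw [four, four]
  refine Fintype.sum_equiv (step 2) _ _ fun v => ?_
  congr 2
  simp [step]; ring

lemma four_step3 (f : ZMod N × ZMod N → ℝ) (z : ZMod N × ZMod N) :
    four (fun v => f (step 3 v)) z = four f ((step 2).symm z) := by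
  rw [four, four]
  refine Fintype.sum_equiv (step 3) _ _ fun v => ?_
  congr 2
  simp [step]; ring

/-- Off the centre the character is far from `1`. -/
lemma char_far {t : ZMod N} (h : (N : ℤ) ≤ 4 * |t.valMinAbs|) :
    2 ≤ ‖(ZMod.stdAddChar t : ℂ) - 1‖ ^ 2 := by
  set j := t.valMinAbs with hj
  set θ : ℝ := 2 * Real.pi * j / N with hθ
  have e : (ZMod.stdAddChar t : ℂ) = Complex.exp (θ * Complex.I) := by
    rw [← ZMod.coe_valMinAbs t, ← hj, ZMod.stdAddChar_coe]
    congr 1; rw [hθ]; push_cast; ring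
  have nn : ‖Complex.exp (θ * Complex.I) - 1‖ ^ 2 = 2 - 2 * Real.cos θ := by
    rw [← Complex.normSq_eq_norm_sq, Complex.normSq_apply]
    simp only [Complex.sub_re, Complex.sub_im, Complex.exp_ofReal_mul_I_re,
      Complex.exp_ofReal_mul_I_im, Complex.one_re, Complex.one_im, sub_zero]
    nlinarith [Real.sin_sq_add_cos_sq θ]
  rw [e, nn]
  have hN : (0 : ℝ) < N := by exact_mod_cast Nat.pos_of_ne_zero (NeZero.ne N)
  have up : 2 * |(j : ℝ)| ≤ N := by
    have := ZMod.natAbs_valMinAbs_le t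
    have : (2 : ℤ) * |j| ≤ N := by rw [Int.abs_eq_natAbs, hj]; omega
    exact_mod_cast this
  have lo : (N : ℝ) ≤ 4 * |(j : ℝ)| := by exact_mod_cast h
  have : |θ| = 2 * Real.pi * |(j : ℝ)| / N := by
    rw [hθ, abs_div, abs_mul, abs_of_pos (by positivity : (0 : ℝ) < 2 * Real.pi), abs_of_pos hN]
  have hc : Real.cos |θ| ≤ 0 := by
    refine Real.cos_nonpos_of_pi_div_two_le_of_le ?_ ?_
    · rw [this, le_div_iff₀ hN]; nlinarith [Real.pi_pos]
    · rw [this, div_le_iff₀ hN]; nlinarith [Real.pi_pos]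
  rw [Real.cos_abs] at hc
  linarith

/-- The gap on mean-zero functions. -/
lemma gap_zero (f : ZMod N × ZMod N → ℝ) (h0 : ∑ v, f v = 0) :
    ∑ v, f v ^ 2 ≤ 10000 * ∑ i : Fin 4, ∑ v, (f (step i v) - f v) ^ 2 := by
  classical
  set g : ZMod N × ZMod N → ℝ := fun z => ‖four f z‖ with hg
  set G : ZMod N × ZMod N → ℝ := fun z => g z ^ 2 with hG
  set E : Fin 4 → ℝ := fun i => (N : ℝ) ^ 2 * ∑ v, (f (step i v) - f v) ^ 2 with hE
  have en : ∀ i, E i = ∑ z, ‖four (fun v => f (step i v)) z - four f z‖ ^ 2 := by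
    intro i
    rw [hE]; dsimp only
    rw [← plancherel]
    simp only [four_sub]
  have e23 : ∀ (i k : Fin 4), (∀ z, four (fun v => f (step i v)) z = four f ((step k).symm z)) →
      ∑ z, (g (step k z) - g z) ^ 2 ≤ E i := by
    intro i k hk
    rw [← Equiv.sum_comp (step k).symm, en i]
    refine sum_le_sum fun z _ => ?_
    rw [Equiv.apply_symm_apply, hk, ← sq_abs, abs_sub_comm]
    exact pow_le_pow_left₀ (abs_nonneg _) (abs_norm_sub_norm_le _ _) 2
  have d2 := e23 3 2 (four_step3 f)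
  have d3 := e23 2 3 (four_step2 f)
  have move : ∀ k, ∑ z, |G (step k z) - G z| ≤
      (1 / 36) * ∑ z, G z + 36 * ∑ z, (g (step k z) - g z) ^ 2 := by
    intro k
    have h1 : ∀ z, |G (step k z) - G z| ≤
        (1 / 72) * (G (step k z) + G z) + 36 * (g (step k z) - g z) ^ 2 := by
      intro z
      simp only [hG]
      rw [abs_le]
      constructor <;> nlinarith [sq_nonneg (12 * 6 * (g (step k z) - g z) - (g (step k z) + g z)),
        sq_nonneg (12 * 6 * (g (step k z) - g z) + (g (step k z) + g z)),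
        sq_nonneg (g (step k z) - g z), sq_nonneg (g (step k z) + g z)]
    refine (sum_le_sum fun z _ => h1 z).trans_eq ?_
    rw [sum_add_distrib, ← mul_sum, ← mul_sum, sum_add_distrib, Equiv.sum_comp (step k) G]
    ring
  set C : ZMod N × ZMod N → Prop := fun z =>
    4 * |z.1.valMinAbs| < (N : ℤ) ∧ 4 * |z.2.valMinAbs| < (N : ℤ) with hC
  have out : 2 * ∑ z ∈ univ.filter (fun z => ¬ C z), G z ≤ E 0 + E 1 := by
    rw [en, en, ← sum_add_distrib, mul_sum, sum_filter]
    refine sum_le_sum fun z _ => ?_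
    rw [four_step0, four_step1]
    have a : ∀ t : ZMod N, ‖ZMod.stdAddChar t * four f z - four f z‖ ^ 2
        = ‖(ZMod.stdAddChar t : ℂ) - 1‖ ^ 2 * G z := by
      intro t; rw [← sub_one_mul, norm_mul, mul_pow]
    rw [a, a]
    have gz : 0 ≤ G z := sq_nonneg _
    have p1 : 0 ≤ ‖(ZMod.stdAddChar z.1 : ℂ) - 1‖ ^ 2 := sq_nonneg _
    have p2 : 0 ≤ ‖(ZMod.stdAddChar z.2 : ℂ) - 1‖ ^ 2 := sq_nonneg _
    split_ifs with h
    · exact add_nonneg (mul_nonneg p1 gz) (mul_nonneg p2 gz)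
    · by_cases h1 : (N : ℤ) ≤ 4 * |z.1.valMinAbs|
      · nlinarith [char_far h1, mul_nonneg p1 gz, mul_nonneg p2 gz]
      · have h2 : (N : ℤ) ≤ 4 * |z.2.valMinAbs| := by
          by_contra h3; exact h ⟨not_le.mp h1, not_le.mp h3⟩
        nlinarith [char_far h2, mul_nonneg p1 gz, mul_nonneg p2 gz]
  have hv : ∀ (x y : ZMod N), 4 * |x.valMinAbs| < (N : ℤ) → 4 * |y.valMinAbs| < (N : ℤ) →
      (x + y).valMinAbs = x.valMinAbs + y.valMinAbs ∧
      (x - y).valMinAbs = x.valMinAbs - y.valMinAbs := by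
    intro x y hx hy
    have := abs_le.mp (le_refl |x.valMinAbs|)
    have := abs_le.mp (le_refl |y.valMinAbs|)
    constructor <;> rw [ZMod.valMinAbs_spec] <;>
      refine ⟨by push_cast [ZMod.coe_valMinAbs]; ring, ?_, ?_⟩ <;> linarith
  have pp := pingpong (G := G) (fun z => sq_nonneg _) (fun z => z.1.valMinAbs)
    (fun z => z.2.valMinAbs) C
    (fun z h1 h2 => by
      obtain rfl : z = (0, 0) := Prod.ext ((ZMod.valMinAbs_eq_zero _).mp h1)
        ((ZMod.valMinAbs_eq_zero _).mp h2)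
      simp only [hG, hg, four]
      simp [← Complex.ofReal_sum, h0])
    (step 2) (step 3)
    (fun z h => ⟨(hv _ _ h.1 h.2).1, rfl⟩) (fun z h => ⟨rfl, (hv _ _ h.1 h.2).1⟩)
    (fun z h => ⟨(hv _ _ h.1 h.2).2, rfl⟩) (fun z h => ⟨rfl, (hv _ _ h.2 h.1).2⟩)
    (η := (1 / 36) * ∑ z, G z + 36 * (E 2 + E 3))
    (by have := move 2; have : 0 ≤ E 2 := by rw [en]; positivity
        linarith)
    (by have := move 3; have : 0 ≤ E 3 := by rw [en]; positivity
        linarith)
  have hs : ∑ z, G z = (N : ℝ) ^ 2 * ∑ v, f v ^ 2 := plancherel f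
  have hE4 : E 0 + E 1 + E 2 + E 3
      = (N : ℝ) ^ 2 * ∑ i : Fin 4, ∑ v, (f (step i v) - f v) ^ 2 := by
    rw [Fin.sum_univ_four, hE]; ring
  have hE2 : 0 ≤ E 2 + E 3 := by rw [en, en]; positivity
  have hE0 : 0 ≤ E 0 + E 1 := by rw [en, en]; positivity
  have hN : (0 : ℝ) < (N : ℝ) ^ 2 := by
    have : (0 : ℝ) < N := by exact_mod_cast Nat.pos_of_ne_zero (NeZero.ne N)
    positivity
  refine le_of_mul_le_mul_left ?_ hN
  rw [← hs, mul_left_comm, ← hE4]
  linarith

/-- The gap in variance form. -/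
lemma gap (f : ZMod N × ZMod N → ℝ) :
    ∑ v, f v ^ 2 - (∑ v, f v) ^ 2 / (N : ℝ) ^ 2
      ≤ 10000 * ∑ i : Fin 4, ∑ v, (f (step i v) - f v) ^ 2 := by
  have hN : (N : ℝ) ≠ 0 := by exact_mod_cast NeZero.ne N
  set μ := (∑ v, f v) / (N : ℝ) ^ 2 with hμ
  have card : (Fintype.card (ZMod N × ZMod N) : ℝ) = (N : ℝ) ^ 2 := by simp [sq]
  have h := gap_zero (fun v => f v - μ) (by
    rw [sum_sub_distrib, sum_const, card_univ, nsmul_eq_mul, card, hμ]; field_simp; ring)
  simp only [sub_sub_sub_cancel_right] at h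
  refine le_of_eq_of_le ?_ h
  simp only [sub_sq, sum_add_distrib, sum_sub_distrib, sum_const, card_univ, nsmul_eq_mul, card]
  rw [← sum_mul, ← mul_sum, hμ]
  field_simp
  ring

end Fourier

/-- The gap on the product of two coprime tori. -/
theorem gap_pair {p q : ℕ} [NeZero p] [NeZero q] (h : p.Coprime q)
    (F : (ZMod p × ZMod p) × (ZMod q × ZMod q) → ℝ) :
    ∑ v, F v ^ 2 - (∑ v, F v) ^ 2 / ((p : ℝ) ^ 2 * (q : ℝ) ^ 2)
      ≤ 10000 * ∑ i : Fin 4, ∑ v, (F (step i v.1, step i v.2) - F v) ^ 2 := by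
  set e := ZMod.chineseRemainder h
  set T : (ZMod (p * q) × ZMod (p * q)) ≃ (ZMod p × ZMod p) × (ZMod q × ZMod q) :=
    (e.toEquiv.prodCongr e.toEquiv).trans (Equiv.prodProdProdComm _ _ _ _)
  have hT : ∀ i v, T (step i v) = (step i (T v).1, step i (T v).2) := by
    intro i v
    have a := step_map ((RingHom.fst (ZMod p) (ZMod q)).comp e.toRingHom) i v
    have b := step_map ((RingHom.snd (ZMod p) (ZMod q)).comp e.toRingHom) i v
    exact Prod.ext a.symm b.symm
  have := gap (fun v => F (T v))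
  simp only [hT] at this
  rw [Equiv.sum_comp T (fun v => F v ^ 2), Equiv.sum_comp T F] at this
  refine le_of_eq_of_le ?_ (this.trans_eq ?_)
  · push_cast; ring
  · congr 1
    exact sum_congr rfl fun i _ => Equiv.sum_comp T fun v => (F (step i v.1, step i v.2) - F v) ^ 2

/-- The `ℓ¹` form for a nonnegative function carried by at most half of the space. -/
theorem gap_half {p q : ℕ} [NeZero p] [NeZero q] (h : p.Coprime q)
    (w : (ZMod p × ZMod p) × (ZMod q × ZMod q) → ℝ) (hw : ∀ v, 0 ≤ w v)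
    (S : Finset ((ZMod p × ZMod p) × (ZMod q × ZMod q))) (hS : ∀ v, v ∉ S → w v = 0)
    (hcard : 2 * (S.card : ℝ) ≤ (p : ℝ) ^ 2 * (q : ℝ) ^ 2) :
    ∑ v, w v ≤ 20000 * ∑ i : Fin 4, ∑ v, |w (step i v.1, step i v.2) - w v| := by
  have hg := gap_pair h (fun v => Real.sqrt (w v))
  have e1 : ∑ v, Real.sqrt (w v) ^ 2 = ∑ v, w v := sum_congr rfl fun v _ => Real.sq_sqrt (hw v)
  have cs : (∑ v, Real.sqrt (w v)) ^ 2 ≤ S.card * ∑ v, w v := by
    rw [← sum_subset (subset_univ S) (fun v _ hv => by simp [hS v hv])]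
    refine (sq_sum_le_card_mul_sum_sq).trans (mul_le_mul_of_nonneg_left ?_ (Nat.cast_nonneg _))
    rw [← e1]
    exact sum_le_sum_of_subset_of_nonneg (subset_univ S) fun v _ _ => sq_nonneg _
  have e2 : ∀ (i : Fin 4) v, (Real.sqrt (w (step i v.1, step i v.2)) - Real.sqrt (w v)) ^ 2
      ≤ |w (step i v.1, step i v.2) - w v| := by
    intro i v
    set a := Real.sqrt (w (step i v.1, step i v.2))
    set b := Real.sqrt (w v)
    rw [← Real.sq_sqrt (hw (step i v.1, step i v.2)), ← Real.sq_sqrt (hw v), sq_sub_sq,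
      abs_mul, ← sq_abs (a - b), sq]
    refine mul_le_mul_of_nonneg_right ?_ (abs_nonneg _)
    have ha : 0 ≤ a := Real.sqrt_nonneg _
    have hb : 0 ≤ b := Real.sqrt_nonneg _
    rw [abs_of_nonneg (add_nonneg ha hb), abs_le]; constructor <;> linarith
  have e3 : ∑ i : Fin 4, ∑ v, (Real.sqrt (w (step i v.1, step i v.2)) - Real.sqrt (w v)) ^ 2
      ≤ ∑ i : Fin 4, ∑ v, |w (step i v.1, step i v.2) - w v| :=
    sum_le_sum fun i _ => sum_le_sum fun v _ => e2 i v
  have hN : (0 : ℝ) < (p : ℝ) ^ 2 * (q : ℝ) ^ 2 := by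
    have : (0 : ℝ) < p := by exact_mod_cast Nat.pos_of_ne_zero (NeZero.ne p)
    have : (0 : ℝ) < q := by exact_mod_cast Nat.pos_of_ne_zero (NeZero.ne q)
    positivity
  have hsum : 0 ≤ ∑ v, w v := sum_nonneg fun v _ => hw v
  have half : (∑ v, Real.sqrt (w v)) ^ 2 / ((p : ℝ) ^ 2 * (q : ℝ) ^ 2) ≤ (∑ v, w v) / 2 := by
    rw [div_le_iff₀ hN]; nlinarith
  rw [e1] at hg
  linarith

end Vale.Agent.P090
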