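/-
P090: the sheet index, its capped graph distance and a distance colouring.
-/
import Vale.Agent.P090.Gap

namespace Vale.Agent.P090

open Finset Function

instance (p : Nat.Primes) : NeZero (p : ℕ) := ⟨p.2.ne_zero⟩

/-- A fibre. -/
abbrev Tor (p : Nat.Primes) := ZMod (p : ℕ) × ZMod (p : ℕ)

/-- The sheets: the union of the tori over all primes. -/
abbrev Sheet := Σ p : Nat.Primes, Tor p

/-- A letter is a move, an inverse move, or a pause. -/
abbrev Letter := Option (Fin 4 × Bool)

/-- The action of one letter. -/
def act : Letter → Sheet → Sheet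
  | none, u => u
  | some (i, true), ⟨p, v⟩ => ⟨p, step i v⟩
  | some (i, false), ⟨p, v⟩ => ⟨p, (step i).symm v⟩

/-- The inverse letter. -/
def flipL : Letter → Letter
  | none => none
  | some (i, b) => some (i, !b)

lemma act_flip (l : Letter) (u : Sheet) : act (flipL l) (act l u) = u := by
  rcases l with _ | ⟨i, _ | _⟩ <;> simp [act, flipL]

lemma act_fst (l : Letter) (u : Sheet) : (act l u).1 = u.1 := by
  rcases l with _ | ⟨i, _ | _⟩ <;> simp [act]

/-- The forward move. -/
def mv (i : Fin 4) : Sheet → Sheet := act (some (i, true))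

lemma mv_mk (i : Fin 4) (p : Nat.Primes) (v : Tor p) : mv i ⟨p, v⟩ = ⟨p, step i v⟩ := rfl

/-- Following a word. -/
def walk (w : List Letter) (u : Sheet) : Sheet := w.foldl (fun x l => act l x) u

lemma walk_append (w w' : List Letter) (u : Sheet) :
    walk (w ++ w') u = walk w' (walk w u) := List.foldl_append ..

lemma walk_back (w : List Letter) : ∀ u, walk ((w.map flipL).reverse) (walk w u) = u := by
  induction w with
  | nil => intro u; rfl
  | cons l w ih =>
    intro u
    rw [List.map_cons, List.reverse_cons, walk_append]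
    show walk [flipL l] (walk _ (walk w (act l u))) = u
    rw [ih]; exact act_flip l u

lemma walk_fst (w : List Letter) : ∀ u, (walk w u).1 = u.1 := by
  induction w with
  | nil => intro u; rfl
  | cons l w ih => intro u; exact (ih (act l u)).trans (act_fst l u)

/-- Joined by a word of length `n`. -/
def Reach (n : ℕ) (u v : Sheet) : Prop := ∃ w : List Letter, w.length = n ∧ walk w u = v

lemma Reach.symm {n : ℕ} {u v : Sheet} : Reach n u v → Reach n v u := by
  rintro ⟨w, rfl, rfl⟩
  exact ⟨(w.map flipL).reverse, by simp, walk_back w u⟩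

lemma Reach.trans {n m : ℕ} {u v x : Sheet} : Reach n u v → Reach m v x → Reach (n + m) u x := by
  rintro ⟨w, rfl, rfl⟩ ⟨w', rfl, rfl⟩
  exact ⟨w ++ w', by simp, walk_append w w' u⟩

lemma reach_stay (u : Sheet) : ∀ n, Reach n u u := by
  intro n
  refine ⟨List.replicate n none, by simp, ?_⟩
  induction n with
  | zero => rfl
  | succ n ih => rw [List.replicate_succ]; exact ih

lemma Reach.mono {n m : ℕ} {u v : Sheet} (h : Reach n u v) (hm : n ≤ m) : Reach m u v := by
  obtain ⟨k, rfl⟩ := Nat.exists_eq_add_of_le hm
  exact h.trans (reach_stay v k)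

open Classical in
/-- The graph distance capped at `2 R`. -/
noncomputable def sdist (R : ℕ) (u v : Sheet) : ℕ :=
  Nat.find (p := fun n => Reach n u v ∨ 2 * R ≤ n) ⟨2 * R, Or.inr le_rfl⟩

open Classical in
lemma sdist_le (R : ℕ) (u v : Sheet) : sdist R u v ≤ 2 * R :=
  Nat.find_min' _ (Or.inr le_rfl)

open Classical in
lemma sdist_le_of_reach {R n : ℕ} {u v : Sheet} (h : Reach n u v) : sdist R u v ≤ n :=
  Nat.find_min' _ (Or.inl h)

open Classical in
lemma sdist_spec (R : ℕ) (u v : Sheet) : Reach (sdist R u v) u v ∨ 2 * R ≤ sdist R u v :=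
  Nat.find_spec (p := fun n => Reach n u v ∨ 2 * R ≤ n) ⟨2 * R, Or.inr le_rfl⟩

lemma sdist_self (R : ℕ) (u : Sheet) : sdist R u u = 0 :=
  Nat.le_zero.mp (sdist_le_of_reach (reach_stay u 0))

lemma sdist_comm (R : ℕ) (u v : Sheet) : sdist R u v = sdist R v u := by
  have key : ∀ u v, sdist R u v ≤ sdist R v u := by
    intro u v
    rcases sdist_spec R v u with h | h
    · exact sdist_le_of_reach h.symm
    · exact (sdist_le R u v).trans h
  exact le_antisymm (key u v) (key v u)

lemma sdist_triangle (R : ℕ) (u v x : Sheet) : sdist R u x ≤ sdist R u v + sdist R v x := by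
  rcases sdist_spec R u v with h | h
  · rcases sdist_spec R v x with h' | h'
    · exact sdist_le_of_reach (h.trans h')
    · exact (sdist_le R u x).trans (by omega)
  · exact (sdist_le R u x).trans (by omega)

lemma sdist_eq_zero {R : ℕ} (hR : 0 < R) {u v : Sheet} (h : sdist R u v = 0) : u = v := by
  rcases sdist_spec R u v with h' | h'
  · rw [h] at h'
    obtain ⟨w, hw, e⟩ := h'
    rw [List.length_eq_zero_iff.mp hw] at e
    exact e
  · omega

lemma sdist_mv (R : ℕ) (i : Fin 4) (u : Sheet) : sdist R u (mv i u) ≤ 1 :=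
  sdist_le_of_reach ⟨[some (i, true)], rfl, rfl⟩

lemma sdist_ne_fst {R : ℕ} {u v : Sheet} (h : u.1 ≠ v.1) : sdist R u v = 2 * R := by
  refine le_antisymm (sdist_le R u v) ?_
  rcases sdist_spec R u v with ⟨w, -, e⟩ | h'
  · exact absurd (by rw [← e, walk_fst]) h
  · exact h'

/-- The number of colours of the distance colouring. -/
abbrev numCol (R : ℕ) : ℕ := 9 ^ (2 * R) + 1

lemma exists_colouring (R : ℕ) :
    ∃ χ : Sheet → Fin (numCol R), ∀ u v, χ u = χ v → u ≠ v → sdist R u v = 2 * R := by
  classical
  have per : ∀ p : Nat.Primes, ∀ s : Finset (Tor p), ∃ χ : Tor p → Fin (numCol R),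
      ∀ a ∈ s, ∀ b ∈ s, χ a = χ b → a ≠ b → sdist R ⟨p, a⟩ ⟨p, b⟩ = 2 * R := by
    intro p s
    induction s using Finset.induction with
    | empty => exact ⟨fun _ => 0, by simp⟩
    | @insert a s ha ih =>
      obtain ⟨χ, hχ⟩ := ih
      set near := s.filter fun b => sdist R ⟨p, a⟩ ⟨p, b⟩ ≠ 2 * R
      have hcard : near.card ≤ 9 ^ (2 * R) := by
        have : ∀ b ∈ near, (⟨p, b⟩ : Sheet) ∈ (univ : Finset (Fin (2 * R) → Letter)).image
            fun w => walk (List.ofFn w) ⟨p, a⟩ := by
          intro b hb
          simp only [near, mem_filter] at hb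
          rcases sdist_spec R ⟨p, a⟩ ⟨p, b⟩ with h | h
          · obtain ⟨w, hw, e⟩ := h.mono (sdist_le R _ _)
            refine mem_image.mpr ⟨fun i => w[(i : ℕ)]'(by omega), mem_univ _, ?_⟩
            have : List.ofFn (fun i : Fin (2 * R) => w[(i : ℕ)]'(by omega)) = w :=
              List.ext_getElem (by simp [hw]) (by simp)
            rw [this, e]
          · exact absurd (le_antisymm (sdist_le R _ _) h) hb.2
        calc near.card = (near.image fun b => (⟨p, b⟩ : Sheet)).card :=
              (card_image_of_injective _ sigma_mk_injective).symm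
          _ ≤ _ := card_le_card (by
              intro x hx
              obtain ⟨b, hb, rfl⟩ := mem_image.mp hx
              exact this b hb)
          _ ≤ _ := card_image_le
          _ = _ := by simp
      obtain ⟨c, hc⟩ : ∃ c, c ∉ near.image χ := by
        by_contra hne
        push Not at hne
        have := card_le_card (fun c (_ : c ∈ (univ : Finset (Fin (numCol R)))) => hne c)
        simp only [card_univ, Fintype.card_fin] at this
        have := card_image_le (s := near) (f := χ)
        unfold numCol at *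
        omega
      refine ⟨update χ a c, fun x hx y hy e hne => ?_⟩
      have other : ∀ b ∈ s, χ b = c → sdist R ⟨p, a⟩ ⟨p, b⟩ = 2 * R := by
        intro b hb e
        by_contra h
        exact hc (mem_image.mpr ⟨b, by simp [near, hb, h], e⟩)
      rcases mem_insert.mp hx with ex | hx <;> rcases mem_insert.mp hy with ey | hy
      · exact absurd (ex.trans ey.symm) hne
      · rw [ex, update_self, update_of_ne (by rw [← ex]; exact hne.symm)] at e
        rw [ex]; exact other y hy e.symm
      · rw [ey, update_self, update_of_ne (by rw [← ey]; exact hne)] at e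
        rw [ey, sdist_comm]
        exact other x hx e
      · rw [update_of_ne (ne_of_mem_of_not_mem hx ha), update_of_ne (ne_of_mem_of_not_mem hy ha)] at e
        exact hχ x hx y hy e hne
  choose χ hχ using fun p => per p univ
  refine ⟨fun u => χ u.1 u.2, ?_⟩
  rintro ⟨p, a⟩ ⟨q, b⟩ e hne
  by_cases h : p = q
  · subst h
    exact hχ p a (mem_univ _) b (mem_univ _) e fun h => hne (by rw [h])
  · exact sdist_ne_fst h

/-- The distance colouring. -/
noncomputable def chi (R : ℕ) : Sheet → Fin (numCol R) := (exists_colouring R).choose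

lemma chi_sep {R : ℕ} {u v : Sheet} (h : chi R u = chi R v) (hne : u ≠ v) :
    sdist R u v = 2 * R :=
  (exists_colouring R).choose_spec u v h hne

/-- The colour of a sheet: its own label and those of its four successors. -/
abbrev Colour (R : ℕ) := Fin (numCol R) × (Fin 4 → Fin (numCol R))

/-- The colour map. -/
noncomputable def colour (R : ℕ) (u : Sheet) : Colour R := (chi R u, fun i => chi R (mv i u))

lemma colour_mv {R : ℕ} {u v : Sheet} (h : colour R u = colour R v) (i : Fin 4) :
    chi R (mv i u) = chi R (mv i v) :=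
  congrFun (congrArg Prod.snd h) i

lemma class_half {R : ℕ} (hR : 0 < R) (p : Nat.Primes) (c : Fin (numCol R)) :
    2 * (univ.filter fun v : Tor p => chi R ⟨p, v⟩ = c).card ≤ (p : ℕ) ^ 2 := by
  classical
  set S := univ.filter fun v : Tor p => chi R ⟨p, v⟩ = c
  have hd : Disjoint S (S.map (step 0).toEmbedding) := by
    rw [Finset.disjoint_left]
    intro v hv hv'
    obtain ⟨w, hw, e⟩ := mem_map.mp hv'
    simp only [S, mem_filter, mem_univ, true_and] at hv hw
    have hne : (⟨p, w⟩ : Sheet) ≠ ⟨p, v⟩ := by
      intro h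
      have h1 : w = v := eq_of_heq (Sigma.mk.inj h).2
      subst h1
      have : Fact (p : ℕ).Prime := ⟨p.2⟩
      have := congrArg Prod.fst e
      simp [step] at this
    have h1 := chi_sep (hw.trans hv.symm) hne
    have h2 := sdist_mv R 0 ⟨p, w⟩
    rw [mv_mk, show step 0 w = v from e] at h2
    omega
  have := card_le_univ (S ∪ S.map (step 0).toEmbedding)
  rw [card_union_of_disjoint hd, card_map] at this
  simp [sq] at this ⊢
  omega

/-- Pairs of sheets of equal colour fill at most half of a product. -/
lemma match_half {R : ℕ} (hR : 0 < R) (p q : Nat.Primes) :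
    2 * ((univ.filter fun v : Tor p × Tor q => colour R ⟨p, v.1⟩ = colour R ⟨q, v.2⟩).card : ℝ)
      ≤ ((p : ℕ) : ℝ) ^ 2 * ((q : ℕ) : ℝ) ^ 2 := by
  classical
  have h : 2 * (univ.filter fun v : Tor p × Tor q => colour R ⟨p, v.1⟩ = colour R ⟨q, v.2⟩).card
      ≤ (p : ℕ) ^ 2 * (q : ℕ) ^ 2 := by
    rw [card_filter, Fintype.sum_prod_type_right, mul_sum]
    calc ∑ w : Tor q, 2 * ∑ v : Tor p, (if colour R ⟨p, v⟩ = colour R ⟨q, w⟩ then 1 else 0)
        ≤ ∑ _w : Tor q, (p : ℕ) ^ 2 := by
          refine sum_le_sum fun w _ => ?_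
          refine le_trans ?_ (class_half hR p (chi R ⟨q, w⟩))
          rw [← card_filter]
          refine Nat.mul_le_mul_left 2 (card_le_card fun v hv => ?_)
          simp only [mem_filter, mem_univ, true_and] at hv ⊢
          exact congrArg Prod.fst hv
      _ = _ := by simp [sq]; ring
  exact_mod_cast h

/-- The distance between sheets, with the anchor at distance `R`. -/
noncomputable def odist (R : ℕ) : Option Sheet → Option Sheet → ℕ
  | none, none => 0
  | none, some _ => R
  | some _, none => R
  | some u, some v => sdist R u v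

lemma odist_self (R : ℕ) : ∀ u, odist R u u = 0
  | none => rfl
  | some u => sdist_self R u

lemma odist_comm (R : ℕ) : ∀ u v, odist R u v = odist R v u := by
  rintro (_ | u) (_ | v) <;> simp [odist, sdist_comm]

lemma odist_le (R : ℕ) : ∀ u v, odist R u v ≤ 2 * R := by
  rintro (_ | u) (_ | v) <;> simp [odist, sdist_le] <;> omega

lemma odist_triangle (R : ℕ) : ∀ u v x, odist R u x ≤ odist R u v + odist R v x := by
  rintro (_ | u) (_ | v) (_ | x) <;> simp [odist, sdist_triangle]
  · have := sdist_le R u x; omega

lemma odist_eq_zero {R : ℕ} (hR : 0 < R) : ∀ {u v}, odist R u v = 0 → u = v := by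
  rintro (_ | u) (_ | v) h <;> simp [odist] at h ⊢
  · omega
  · omega
  · exact sdist_eq_zero hR h

end Vale.Agent.P090
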