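/-
P090: one component of the counterexample and the glued metric space.
-/
import Vale.Agent.P090.Graph

namespace Vale.Agent.P090

open Finset Function

/-- Cyclic size of an element of `ℤ/n`. -/
def za {n : ℕ} (t : ZMod n) : ℕ := t.valMinAbs.natAbs

lemma za_zero (n : ℕ) : za (0 : ZMod n) = 0 := by simp [za]

lemma za_neg {n : ℕ} (t : ZMod n) : za (-t) = za t := ZMod.natAbs_valMinAbs_neg t

lemma za_add {n : ℕ} (s t : ZMod n) : za (s + t) ≤ za s + za t :=
  (ZMod.natAbs_valMinAbs_add_le s t).trans (Int.natAbs_add_le _ _)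

lemma za_le {n : ℕ} [NeZero n] (t : ZMod n) : za t ≤ n / 2 := ZMod.natAbs_valMinAbs_le t

lemma za_eq_zero {n : ℕ} {t : ZMod n} (h : za t = 0) : t = 0 :=
  (ZMod.valMinAbs_eq_zero t).mp (Int.natAbs_eq_zero.mp h)

section Component

variable (R L m : ℕ)

/-- Coordinates. -/
abbrev Coord := Colour R × Fin m

/-- Positions. -/
abbrev Pos := Coord R m → ZMod (4 * L)

/-- A component: positions times sheets, the sheet `none` being the anchor. -/
abbrev Comp := Pos R L m × Option Sheet

variable {R L m}

/-- The summed size on a block. -/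
def blockSum (b : Colour R) (z : Pos R L m) : ℕ := ∑ i, za (z (b, i))

/-- The largest size on a block. -/
def blockMax (b : Colour R) (z : Pos R L m) : ℕ := univ.sup fun i => za (z (b, i))

/-- The common lower norm. -/
def normB (z : Pos R L m) : ℕ := univ.sup fun b => blockSum b z

/-- The norm of a sheet: summed on its own block, uniform elsewhere. -/
noncomputable def normW (u : Option Sheet) (z : Pos R L m) : ℕ :=
  univ.sup fun b => if u.map (colour R) = some b then blockSum b z else m * blockMax b z

lemma blockSum_le_max (b : Colour R) (z : Pos R L m) : blockSum b z ≤ m * blockMax b z := by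
  refine (sum_le_card_nsmul _ _ (blockMax b z) fun i _ => ?_).trans_eq (by simp)
  exact le_sup (f := fun i => za (z (b, i))) (mem_univ i)

lemma blockSum_le_normB (b : Colour R) (z : Pos R L m) : blockSum b z ≤ normB z :=
  le_sup (f := fun b => blockSum b z) (mem_univ b)

lemma normB_le_normW (u : Option Sheet) (z : Pos R L m) : normB z ≤ normW u z := by
  refine Finset.sup_le fun b _ => le_trans ?_ (le_sup (mem_univ b))
  split_ifs
  · exact le_rfl
  · exact blockSum_le_max b z

lemma coord_le_normW {u : Option Sheet} {k : Colour R} (h : u.map (colour R) ≠ some k)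
    (z : Pos R L m) (i : Fin m) : m * za (z (k, i)) ≤ normW u z := by
  refine le_trans ?_ (le_sup (mem_univ k))
  rw [if_neg h]
  exact Nat.mul_le_mul_left m (le_sup (f := fun i => za (z (k, i))) (mem_univ i))

lemma blockSum_neg (b : Colour R) (z : Pos R L m) : blockSum b (-z) = blockSum b z := by
  simp [blockSum, za_neg]

lemma blockMax_neg (b : Colour R) (z : Pos R L m) : blockMax b (-z) = blockMax b z := by
  simp [blockMax, za_neg]

lemma blockSum_add (b : Colour R) (z w : Pos R L m) :
    blockSum b (z + w) ≤ blockSum b z + blockSum b w := by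
  rw [blockSum, blockSum, blockSum, ← sum_add_distrib]
  exact sum_le_sum fun i _ => za_add _ _

lemma blockMax_add (b : Colour R) (z w : Pos R L m) :
    blockMax b (z + w) ≤ blockMax b z + blockMax b w :=
  Finset.sup_le fun i _ => (za_add _ _).trans (Nat.add_le_add
    (le_sup (f := fun i => za (z (b, i))) (mem_univ i))
    (le_sup (f := fun i => za (w (b, i))) (mem_univ i)))

lemma normB_neg (z : Pos R L m) : normB (-z) = normB z := by simp [normB, blockSum_neg]

lemma normW_neg (u : Option Sheet) (z : Pos R L m) : normW u (-z) = normW u z := by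
  simp [normW, blockSum_neg, blockMax_neg]

lemma normB_add (z w : Pos R L m) : normB (z + w) ≤ normB z + normB w :=
  Finset.sup_le fun b _ => (blockSum_add b z w).trans
    (Nat.add_le_add (blockSum_le_normB b z) (blockSum_le_normB b w))

lemma normW_add (u : Option Sheet) (z w : Pos R L m) :
    normW u (z + w) ≤ normW u z + normW u w := by
  refine Finset.sup_le fun b _ => le_trans ?_ (Nat.add_le_add (le_sup (mem_univ b))
    (le_sup (mem_univ b)))
  split_ifs
  · exact blockSum_add b z w
  · rw [← mul_add]; exact Nat.mul_le_mul_left m (blockMax_add b z w)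

lemma normB_zero : normB (0 : Pos R L m) = 0 := by simp [normB, blockSum, za_zero]

lemma normW_zero (u : Option Sheet) : normW u (0 : Pos R L m) = 0 := by
  simp [normW, blockSum, blockMax, za_zero]

lemma eq_zero_of_normB {z : Pos R L m} (h : normB z = 0) : z = 0 := by
  funext ⟨b, i⟩
  have := blockSum_le_normB b z
  rw [h, Nat.le_zero, blockSum, sum_eq_zero_iff] at this
  exact za_eq_zero (this i (mem_univ i))

lemma normB_le [NeZero L] (z : Pos R L m) : normB z ≤ m * (2 * L) := by
  refine Finset.sup_le fun b _ => ?_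
  refine (sum_le_card_nsmul _ _ (2 * L) fun i _ => (za_le _).trans (by omega)).trans_eq (by simp)

open Classical in
/-- The distance on a component. -/
noncomputable def cdist (a b : Comp R L m) : ℕ :=
  if a.2 = b.2 then min (normW a.2 (b.1 - a.1)) (normB (b.1 - a.1) + 2 * m)
  else m * odist R a.2 b.2 + normB (b.1 - a.1)

lemma normB_le_cdist (a b : Comp R L m) : normB (b.1 - a.1) ≤ cdist a b := by
  unfold cdist
  split_ifs
  · exact le_min (normB_le_normW _ _) (Nat.le_add_right _ _)
  · exact Nat.le_add_left _ _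

lemma odist_le_cdist (a b : Comp R L m) :
    m * odist R a.2 b.2 + normB (b.1 - a.1) ≤ cdist a b := by
  by_cases h : a.2 = b.2
  · rw [h, odist_self, mul_zero, zero_add]; exact normB_le_cdist a b
  · rw [cdist, if_neg h]

lemma cdist_self (a : Comp R L m) : cdist a a = 0 := by simp [cdist, normW_zero]

lemma cdist_comm (a b : Comp R L m) : cdist a b = cdist b a := by
  have e : a.1 - b.1 = -(b.1 - a.1) := (neg_sub _ _).symm
  by_cases h : a.2 = b.2
  · rw [cdist, cdist, if_pos h, if_pos h.symm, e, normB_neg, normW_neg, h]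
  · rw [cdist, cdist, if_neg h, if_neg (Ne.symm h), e, normB_neg, odist_comm]

lemma odist_pos (hR : 0 < R) {u v : Option Sheet} (h : u ≠ v) : 0 < odist R u v :=
  Nat.pos_of_ne_zero fun e => h (odist_eq_zero hR e)

lemma cdist_triangle (hR : 0 < R) (a b c : Comp R L m) :
    cdist a c ≤ cdist a b + cdist b c := by
  have hB : normB (c.1 - a.1) ≤ normB (b.1 - a.1) + normB (c.1 - b.1) := by
    rw [show c.1 - a.1 = (b.1 - a.1) + (c.1 - b.1) by abel]
    exact normB_add _ _
  have hab := odist_le_cdist a b
  have hbc := odist_le_cdist b c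
  by_cases h : a.2 = c.2
  · rw [cdist, if_pos h]
    by_cases h' : a.2 = b.2
    · have hW : normW a.2 (c.1 - a.1) ≤ normW a.2 (b.1 - a.1) + normW a.2 (c.1 - b.1) := by
        rw [show c.1 - a.1 = (b.1 - a.1) + (c.1 - b.1) by abel]
        exact normW_add _ _ _
      have := normB_le_normW a.2 (b.1 - a.1)
      have := normB_le_normW a.2 (c.1 - b.1)
      rw [cdist, if_pos h', cdist, if_pos (h'.symm.trans h), ← h']
      rcases min_cases (normW a.2 (b.1 - a.1)) (normB (b.1 - a.1) + 2 * m) with ⟨e, -⟩ | ⟨e, -⟩ <;>
        rcases min_cases (normW a.2 (c.1 - b.1)) (normB (c.1 - b.1) + 2 * m) with ⟨f, -⟩ | ⟨f, -⟩ <;>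
        simp only [e, f] <;>
        first | exact (min_le_left _ _).trans (by omega) | exact (min_le_right _ _).trans (by omega)
    · have := Nat.le_mul_of_pos_right m (odist_pos hR h')
      have := Nat.le_mul_of_pos_right m (odist_pos hR (fun e => h' (h.trans e.symm) : b.2 ≠ c.2))
      exact (min_le_right _ _).trans (by omega)
  · rw [cdist, if_neg h]
    have := Nat.mul_le_mul_left m (odist_triangle R a.2 b.2 c.2)
    rw [mul_add] at this
    omega

lemma cdist_eq_zero (hR : 0 < R) (hm : 0 < m) {a b : Comp R L m} (h : cdist a b = 0) :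
    a = b := by
  have h1 := odist_le_cdist a b
  rw [h, Nat.le_zero, Nat.add_eq_zero_iff, mul_eq_zero] at h1
  obtain ⟨h2 | h2, h3⟩ := h1
  · omega
  · refine Prod.ext ?_ (odist_eq_zero hR h2)
    exact (sub_eq_zero.mp (eq_zero_of_normB h3)).symm

/-- The distance from the base point. -/
def rad (R L m : ℕ) : ℕ := m * (2 * R + 2 * L + 2)

lemma cdist_le [NeZero L] (a b : Comp R L m) : cdist a b ≤ rad R L m := by
  have h1 := normB_le (b.1 - a.1)
  have h2 := Nat.mul_le_mul_left m (odist_le R a.2 b.2)
  unfold rad cdist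
  simp only [mul_add] at *
  split_ifs
  · exact (min_le_right _ _).trans (by omega)
  · omega

end Component

/-! ### Gluing components at a point -/

section Glue

/-- Parameters of a sequence of components. -/
structure Params where
  R : ℕ → ℕ
  L : ℕ → ℕ
  m : ℕ → ℕ
  Rpos : ∀ n, 0 < R n
  Lpos : ∀ n, 0 < L n
  mpos : ∀ n, 0 < m n

variable (P : Params)

/-- The glued space. -/
abbrev Glued := Option (Σ n : ℕ, Comp (P.R n) (P.L n) (P.m n))

/-- The radius of a component. -/
def Params.rad (n : ℕ) : ℕ := P090.rad (P.R n) (P.L n) (P.m n)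

/-- The distance on the glued space. -/
noncomputable def gdist : Glued P → Glued P → ℕ
  | none, none => 0
  | none, some ⟨n, _⟩ => P.rad n
  | some ⟨n, _⟩, none => P.rad n
  | some ⟨n, a⟩, some ⟨k, b⟩ =>
      if h : n = k then cdist (h ▸ a) b else P.rad n + P.rad k

lemma gdist_same (n : ℕ) (a b : Comp (P.R n) (P.L n) (P.m n)) :
    gdist P (some ⟨n, a⟩) (some ⟨n, b⟩) = cdist a b := dif_pos rfl

lemma gdist_diff {n k : ℕ} (h : n ≠ k) (a : Comp (P.R n) (P.L n) (P.m n))
    (b : Comp (P.R k) (P.L k) (P.m k)) :
    gdist P (some ⟨n, a⟩) (some ⟨k, b⟩) = P.rad n + P.rad k := dif_neg h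

lemma gdist_le_rad {n : ℕ} (a b : Comp (P.R n) (P.L n) (P.m n)) : cdist a b ≤ P.rad n :=
  haveI : NeZero (P.L n) := ⟨(P.Lpos n).ne'⟩
  cdist_le a b

lemma gdist_self : ∀ a, gdist P a a = 0
  | none => rfl
  | some ⟨n, a⟩ => by rw [gdist_same, cdist_self]

lemma gdist_comm : ∀ a b, gdist P a b = gdist P b a := by
  rintro (_ | ⟨n, a⟩) (_ | ⟨k, b⟩)
  · rfl
  · rfl
  · rfl
  · by_cases h : n = k
    · subst h; rw [gdist_same, gdist_same, cdist_comm]
    · rw [gdist_diff P h, gdist_diff P (Ne.symm h), add_comm]

lemma rad_pos (n : ℕ) : 0 < P.rad n :=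
  Nat.mul_pos (P.mpos n) (by omega)

lemma gdist_none_left {n : ℕ} (a : Comp (P.R n) (P.L n) (P.m n)) :
    gdist P none (some ⟨n, a⟩) = P.rad n := rfl

lemma gdist_none_right {n : ℕ} (a : Comp (P.R n) (P.L n) (P.m n)) :
    gdist P (some ⟨n, a⟩) none = P.rad n := rfl

lemma gdist_none_none : gdist P none none = 0 := rfl

lemma gdist_triangle : ∀ a b c, gdist P a c ≤ gdist P a b + gdist P b c := by
  rintro (_ | ⟨n, a⟩) (_ | ⟨k, b⟩) (_ | ⟨l, c⟩) <;>
    (try simp only [gdist_none_left, gdist_none_right, gdist_none_none, gdist_self])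
  all_goals try omega
  · by_cases h : k = l
    · subst h; rw [gdist_same]; omega
    · rw [gdist_diff P h]; omega
  · by_cases h : n = l
    · subst h; rw [gdist_same]; have := gdist_le_rad P a c; omega
    · rw [gdist_diff P h]
  · by_cases h : n = k
    · subst h; rw [gdist_same]; omega
    · rw [gdist_diff P h]; omega
  · by_cases h : n = l
    · subst h
      rw [gdist_same]
      by_cases h' : n = k
      · subst h'; rw [gdist_same, gdist_same]; exact cdist_triangle (P.Rpos n) a b c
      · rw [gdist_diff P h', gdist_diff P (Ne.symm h')]; have := gdist_le_rad P a c; omega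
    · rw [gdist_diff P h]
      by_cases h' : n = k
      · subst h'; rw [gdist_same, gdist_diff P h]; omega
      · rw [gdist_diff P h']
        by_cases h'' : k = l
        · subst h''; rw [gdist_same]; omega
        · rw [gdist_diff P h'']; omega

lemma gdist_eq_zero : ∀ {a b}, gdist P a b = 0 → a = b := by
  rintro (_ | ⟨n, a⟩) (_ | ⟨k, b⟩) h
  · rfl
  · exact absurd h (rad_pos P k).ne'
  · exact absurd h (rad_pos P n).ne'
  · by_cases e : n = k
    · subst e
      rw [gdist_same] at h
      rw [cdist_eq_zero (P.Rpos n) (P.mpos n) h]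
    · rw [gdist_diff P e] at h
      have := rad_pos P n; omega

/-- The metric of the glued space. -/
noncomputable instance gluedMetric : MetricSpace (Glued P) where
  dist a b := (gdist P a b : ℝ)
  dist_self a := by simp [gdist_self]
  dist_comm a b := by simp [gdist_comm P a b]
  dist_triangle a b c := by exact_mod_cast gdist_triangle P a b c
  eq_of_dist_eq_zero h := gdist_eq_zero P (by exact_mod_cast h)

lemma glued_dist (a b : Glued P) : dist a b = (gdist P a b : ℝ) := rfl

lemma glued_one_le {a b : Glued P} (h : a ≠ b) : 1 ≤ dist a b := by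
  rw [glued_dist]
  exact_mod_cast Nat.one_le_iff_ne_zero.mpr fun e => h (gdist_eq_zero P e)

end Glue

end Vale.Agent.P090
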