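/-
P090: triangle waves, their primitives and block averages.
-/
import Vale.Agent.P090.Space

namespace Vale.Agent.P090

open Finset Function

variable {L : ℕ}

/-- The triangle wave of period `4 L`. -/
noncomputable def tri (t : ZMod (4 * L)) : ℝ := 1 - (za t : ℝ) / L

lemma tri_zero : tri (0 : ZMod (4 * L)) = 1 := by simp [tri, za_zero]

lemma za_sub_le {n : ℕ} (s t : ZMod n) : |(za s : ℝ) - za t| ≤ za (s - t) := by
  have h1 := za_add t (s - t)
  have h2 := za_add s (t - s)
  rw [add_sub_cancel] at h1 h2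
  rw [← neg_sub s t, za_neg] at h2
  have h1' : (za s : ℝ) ≤ za t + za (s - t) := by exact_mod_cast h1
  have h2' : (za t : ℝ) ≤ za s + za (s - t) := by exact_mod_cast h2
  rw [abs_le]; constructor <;> linarith

variable [NeZero L]

lemma abs_tri_le (t : ZMod (4 * L)) : |tri t| ≤ 1 := by
  have hL : (0 : ℝ) < L := by exact_mod_cast Nat.pos_of_ne_zero (NeZero.ne L)
  have h : (za t : ℝ) ≤ 2 * L := by
    have := za_le t
    exact_mod_cast (show za t ≤ 2 * L by omega)
  have h2 : (za t : ℝ) / L ≤ 2 := (div_le_iff₀ hL).mpr (by linarith)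
  have h3 : 0 ≤ (za t : ℝ) / L := by positivity
  rw [tri, abs_le]; constructor <;> linarith

lemma tri_lip (s t : ZMod (4 * L)) : |tri s - tri t| ≤ (za (s - t) : ℝ) / L := by
  have hL : (0 : ℝ) < L := by exact_mod_cast Nat.pos_of_ne_zero (NeZero.ne L)
  rw [tri, tri, sub_sub_sub_cancel_left, ← sub_div, abs_div, abs_of_pos hL, abs_sub_comm]
  exact div_le_div_of_nonneg_right (za_sub_le s t) hL.le

lemma za_half_shift (t : ZMod (4 * L)) :
    (za (t + ((2 * L : ℕ) : ZMod (4 * L))) : ℤ) = 2 * L - za t := by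
  have hmem := t.valMinAbs_mem_Ioc
  push_cast at hmem
  have z : ((4 * (L : ℤ) : ℤ) : ZMod (4 * L)) = 0 := by
    rw [show (4 * (L : ℤ)) = ((4 * L : ℕ) : ℤ) by push_cast; ring, Int.cast_natCast,
      ZMod.natCast_self]
  by_cases h : 0 < t.valMinAbs
  · have e : (t + ((2 * L : ℕ) : ZMod (4 * L))).valMinAbs = t.valMinAbs - 2 * L := by
      rw [ZMod.valMinAbs_spec]
      refine ⟨?_, ?_, ?_⟩
      · have : ((t.valMinAbs - 2 * L + 4 * L : ℤ) : ZMod (4 * L))
            = t + ((2 * L : ℕ) : ZMod (4 * L)) := by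
          push_cast [ZMod.coe_valMinAbs]; ring
        rw [← this, Int.cast_add, z, add_zero]
      · push_cast; linarith
      · push_cast; linarith [hmem.2]
    simp only [za, e]; have := hmem.2; omega
  · have e : (t + ((2 * L : ℕ) : ZMod (4 * L))).valMinAbs = t.valMinAbs + 2 * L := by
      rw [ZMod.valMinAbs_spec]
      refine ⟨by push_cast [ZMod.coe_valMinAbs]; ring, ?_, ?_⟩
      · push_cast; linarith [hmem.1]
      · push_cast; linarith
    simp only [za, e]; have := hmem.1; omega

lemma sum_tri : ∑ t : ZMod (4 * L), tri t = 0 := by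
  have hL : (L : ℝ) ≠ 0 := by exact_mod_cast NeZero.ne L
  have flip : ∀ t : ZMod (4 * L), tri (t + ((2 * L : ℕ) : ZMod (4 * L))) = -tri t := by
    intro t
    have h : (za (t + ((2 * L : ℕ) : ZMod (4 * L))) : ℝ) = 2 * L - za t := by
      exact_mod_cast za_half_shift t
    rw [tri, tri, h]; field_simp; ring
  have := Equiv.sum_comp (Equiv.addRight ((2 * L : ℕ) : ZMod (4 * L))) (tri (L := L))
  simp only [Equiv.coe_addRight, flip, sum_neg_distrib] at this
  linarith

/-- A periodic primitive of the triangle wave. -/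
noncomputable def prim (t : ZMod (4 * L)) : ℝ :=
  ∑ i ∈ range t.val, tri ((i : ℕ) : ZMod (4 * L))

lemma prim_succ (t : ZMod (4 * L)) : prim (t + 1) = prim t + tri t := by
  have hN : 0 < 4 * L := Nat.pos_of_ne_zero (NeZero.ne _)
  have v1 : (t + 1).val = (t.val + 1) % (4 * L) := by
    rw [← ZMod.val_natCast]; simp
  by_cases h : t.val + 1 < 4 * L
  · rw [prim, prim, v1, Nat.mod_eq_of_lt h, sum_range_succ, ZMod.natCast_zmod_val]
  · have e : t.val + 1 = 4 * L := by have := t.val_lt; omega
    rw [prim, prim, v1, e, Nat.mod_self, range_zero, sum_empty]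
    have s := sum_range_succ (fun i : ℕ => tri ((i : ℕ) : ZMod (4 * L))) t.val
    rw [e, ZMod.natCast_zmod_val] at s
    have all : ∑ i ∈ range (4 * L), tri ((i : ℕ) : ZMod (4 * L)) = ∑ x : ZMod (4 * L), tri x := by
      refine sum_nbij (fun i : ℕ => (i : ZMod (4 * L))) (fun i _ => mem_univ _) ?_ ?_ fun i _ => rfl
      · intro a ha b hb hab
        simp only [coe_range, Set.mem_Iio] at ha hb
        have := congrArg ZMod.val hab
        rwa [ZMod.val_natCast, ZMod.val_natCast, Nat.mod_eq_of_lt ha, Nat.mod_eq_of_lt hb] at this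
      · intro x _
        exact ⟨x.val, by simp [x.val_lt], ZMod.natCast_zmod_val x⟩
    rw [all, sum_tri] at s
    linarith

lemma abs_prim_le (t : ZMod (4 * L)) : |prim t| ≤ 4 * L := by
  refine (abs_sum_le_sum_abs _ _).trans ((sum_le_sum fun i _ => abs_tri_le _).trans ?_)
  simp only [sum_const, card_range, nsmul_eq_mul, mul_one]
  exact_mod_cast t.val_lt.le

lemma prim_step (t : ZMod (4 * L)) : ∀ k : ℕ, |prim (t + (k : ZMod (4 * L))) - prim t| ≤ k := by
  intro k
  induction k with
  | zero => simp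
  | succ k ih =>
    push_cast
    rw [← add_assoc, prim_succ]
    have := abs_tri_le (t + (k : ZMod (4 * L)))
    rw [abs_le] at *
    constructor <;> linarith

lemma prim_lip (s t : ZMod (4 * L)) : |prim s - prim t| ≤ za (s - t) := by
  set z := (s - t).valMinAbs with hz
  have e : ((z : ℤ) : ZMod (4 * L)) = s - t := ZMod.coe_valMinAbs _
  rcases Int.natAbs_eq z with h | h
  · have h2 : s = t + ((za (s - t) : ℕ) : ZMod (4 * L)) := by
      rw [za, ← hz, ← Int.cast_natCast (R := ZMod (4 * L)), ← h, e]; ring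
    conv_lhs => rw [h2]
    exact prim_step t _
  · have h2 : t = s + ((za (s - t) : ℕ) : ZMod (4 * L)) := by
      rw [za, ← hz, ← Int.cast_natCast (R := ZMod (4 * L))]
      rw [show ((z.natAbs : ℤ)) = -z by omega, Int.cast_neg, e]; ring
    conv_lhs => rw [h2, abs_sub_comm]
    exact prim_step s _

variable {R m : ℕ}

/-- The average of the triangle wave on a block. -/
noncomputable def avg (b : Colour R) (z : Pos R L m) : ℝ := (∑ i, tri (z (b, i))) / m

/-- The product of the averages over a set of blocks. -/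
noncomputable def avgProd (s : Finset (Colour R)) (z : Pos R L m) : ℝ := ∏ b ∈ s, avg b z

lemma abs_avg_le (b : Colour R) (z : Pos R L m) : |avg b z| ≤ 1 := by
  rw [avg, abs_div, Nat.abs_cast]
  refine div_le_one_of_le₀ ?_ (Nat.cast_nonneg m)
  exact (abs_sum_le_sum_abs _ _).trans ((sum_le_sum fun i _ => abs_tri_le _).trans_eq (by simp))

lemma avg_lip (b : Colour R) (z w : Pos R L m) :
    |avg b z - avg b w| ≤ (normB (z - w) : ℝ) / (m * L) := by
  rw [avg, avg, ← sub_div, ← sum_sub_distrib, abs_div, Nat.abs_cast, mul_comm (m : ℝ), ← div_div]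
  refine div_le_div_of_nonneg_right ?_ (Nat.cast_nonneg m)
  refine (abs_sum_le_sum_abs _ _).trans ((sum_le_sum fun i _ => tri_lip _ _).trans ?_)
  rw [← sum_div]
  refine div_le_div_of_nonneg_right ?_ (Nat.cast_nonneg L)
  have := blockSum_le_normB b (z - w)
  have h : (blockSum b (z - w) : ℝ) ≤ normB (z - w) := by exact_mod_cast this
  refine le_trans (le_of_eq ?_) h
  simp [blockSum]

lemma abs_avgProd_le (s : Finset (Colour R)) (z : Pos R L m) : |avgProd s z| ≤ 1 := by
  rw [avgProd, abs_prod]
  exact prod_le_one (fun b _ => abs_nonneg _) fun b _ => abs_avg_le b z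

lemma avgProd_lip (s : Finset (Colour R)) (z w : Pos R L m) :
    |avgProd s z - avgProd s w| ≤ s.card * ((normB (z - w) : ℝ) / (m * L)) := by
  induction s using Finset.induction with
  | empty => simp [avgProd]
  | @insert b s hb ih =>
    simp only [avgProd, prod_insert hb, card_insert_of_notMem hb, Nat.cast_add, Nat.cast_one]
    simp only [avgProd] at ih
    have e : avg b z * ∏ c ∈ s, avg c z - avg b w * ∏ c ∈ s, avg c w
        = avg b z * (∏ c ∈ s, avg c z - ∏ c ∈ s, avg c w)
          + (avg b z - avg b w) * ∏ c ∈ s, avg c w := by ring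
    rw [e, add_mul, one_mul]
    refine (abs_add_le _ _).trans (add_le_add ?_ ?_)
    · rw [abs_mul]
      exact (mul_le_of_le_one_left (abs_nonneg _) (abs_avg_le b z)).trans ih
    · rw [abs_mul]
      refine (mul_le_of_le_one_right (abs_nonneg _) ?_).trans (avg_lip b z w)
      exact abs_avgProd_le s w

end Vale.Agent.P090
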