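/-
P090: functionals attached to Lipschitz test functions on one component.
-/
import Vale.Agent.P090.Waves

namespace Vale.Agent.P090

open Finset Function

/-- A Banach space linearising the Lipschitz functions of a pointed metric space. -/
structure Frame (M : Type*) [MetricSpace M] (X : Type*) [NormedAddCommGroup X]
    [NormedSpace ℝ X] where
  o : M
  δ : M → X
  δo : δ o = 0
  iso : Isometry δ
  dense : (Submodule.span ℝ (Set.range δ)).topologicalClosure = ⊤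
  extend : ∀ f : M → ℝ, LipschitzWith 1 f → f o = 0 →
    ∃ φ : X →L[ℝ] ℝ, ‖φ‖ ≤ 1 ∧ ∀ x, φ (δ x) = f x

variable {M X : Type*} [MetricSpace M] [NormedAddCommGroup X] [NormedSpace ℝ X]
  (F : Frame M X)

lemma Frame.clm_ext {φ ψ : X →L[ℝ] ℝ} (h : ∀ x, φ (F.δ x) = ψ (F.δ x)) : φ = ψ :=
  ContinuousLinearMap.ext_on
    (Submodule.dense_iff_topologicalClosure_eq_top.mpr F.dense) (by rintro _ ⟨x, rfl⟩; exact h x)

open Classical in
/-- The functional of a test function. -/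
noncomputable def Frame.pr (g : M → ℝ) : X →L[ℝ] ℝ :=
  if h : ∃ φ : X →L[ℝ] ℝ, ∀ x, φ (F.δ x) = g x then h.choose else 0

lemma Frame.pr_eq {g : M → ℝ} {φ : X →L[ℝ] ℝ} (h : ∀ x, φ (F.δ x) = g x) : F.pr g = φ := by
  classical
  have h' : ∃ φ : X →L[ℝ] ℝ, ∀ x, φ (F.δ x) = g x := ⟨φ, h⟩
  rw [Frame.pr, dif_pos h']
  exact F.clm_ext fun x => by rw [h'.choose_spec x, h x]

/-- A test function of constant `C`. -/
def Frame.IsTest (g : M → ℝ) (C : ℝ) : Prop :=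
  0 < C ∧ g F.o = 0 ∧ ∀ a b, |g a - g b| ≤ C * dist a b

lemma Frame.exists_rep {g : M → ℝ} {C : ℝ} (h : F.IsTest g C) :
    ∃ φ : X →L[ℝ] ℝ, ‖φ‖ ≤ C ∧ ∀ x, φ (F.δ x) = g x := by
  obtain ⟨hC, h0, hL⟩ := h
  obtain ⟨φ, hn, he⟩ := F.extend (fun x => g x / C) (LipschitzWith.of_dist_le_mul fun a b => by
    rw [Real.dist_eq, ← sub_div, abs_div, abs_of_pos hC, NNReal.coe_one, one_mul,
      div_le_iff₀ hC, mul_comm]
    exact hL a b) (by simp [h0])
  refine ⟨C • φ, ?_, fun x => ?_⟩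
  · rw [norm_smul, Real.norm_eq_abs, abs_of_pos hC]
    exact mul_le_of_le_one_right hC.le hn
  · simp [he, mul_div_cancel₀ _ hC.ne']

lemma Frame.pr_apply {g : M → ℝ} {C : ℝ} (h : F.IsTest g C) (x : M) :
    F.pr g (F.δ x) = g x := by
  obtain ⟨φ, -, he⟩ := F.exists_rep h
  rw [F.pr_eq he, he]

lemma Frame.pr_le {g : M → ℝ} {C : ℝ} (h : F.IsTest g C) (v : X) :
    |F.pr g v| ≤ C * ‖v‖ := by
  obtain ⟨φ, hn, he⟩ := F.exists_rep h
  rw [F.pr_eq he, ← Real.norm_eq_abs]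
  exact (φ.le_opNorm v).trans (mul_le_mul_of_nonneg_right hn (norm_nonneg v))

lemma Frame.pr_combo {β : Type*} (s : Finset β) (g : β → M → ℝ) (c : β → ℝ)
    (h : ∀ b ∈ s, ∃ C, F.IsTest (g b) C) (v : X) :
    F.pr (fun x => ∑ b ∈ s, c b * g b x) v = ∑ b ∈ s, c b * F.pr (g b) v := by
  rw [F.pr_eq (φ := ∑ b ∈ s, c b • F.pr (g b))]
  · simp
  · intro x
    simp only [ContinuousLinearMap.coe_sum', Finset.sum_apply, ContinuousLinearMap.coe_smul',
      Pi.smul_apply, smul_eq_mul]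
    refine sum_congr rfl fun b hb => ?_
    obtain ⟨C, hC⟩ := h b hb
    rw [F.pr_apply hC]

lemma Frame.pr_add {g1 g2 : M → ℝ} {C1 C2 : ℝ} (h1 : F.IsTest g1 C1) (h2 : F.IsTest g2 C2)
    (v : X) : F.pr (fun x => g1 x + g2 x) v = F.pr g1 v + F.pr g2 v := by
  rw [F.pr_eq (φ := F.pr g1 + F.pr g2)]
  · simp
  · intro x; simp [F.pr_apply h1, F.pr_apply h2]

lemma Frame.dist_eq (a b : M) : ‖F.δ a - F.δ b‖ = dist a b := by
  rw [← dist_eq_norm, F.iso.dist_eq]

lemma Frame.pr_map_sub {g : M → ℝ} {C : ℝ} (h : F.IsTest g C) (T : X →L[ℝ] X) {Λ : ℝ}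
    (hT : ‖T‖ ≤ Λ) (a b : M) :
    |F.pr g (T (F.δ a)) - F.pr g (T (F.δ b))| ≤ C * (Λ * dist a b) := by
  rw [← map_sub, ← map_sub]
  refine (F.pr_le h _).trans (mul_le_mul_of_nonneg_left ?_ h.1.le)
  rw [← F.dist_eq]
  exact (T.le_opNorm _).trans (mul_le_mul_of_nonneg_right hT (norm_nonneg _))

section Component

variable {R L m : ℕ}

/-- A component sitting in `M`, away from everything else. -/
structure Place (M : Type*) [MetricSpace M] (o : M) (R L m : ℕ) where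
  ι : Comp R L m → M
  dist_eq : ∀ a b, dist (ι a) (ι b) = cdist a b
  far : ∀ a q, q ∉ Set.range ι → (rad R L m : ℝ) ≤ dist (ι a) q
  base : o ∉ Set.range ι

variable {o : M} (Q : Place M o R L m)

lemma Place.inj (hR : 0 < R) (hm : 0 < m) : Injective Q.ι := by
  intro a b e
  have := Q.dist_eq a b
  rw [e, dist_self] at this
  exact cdist_eq_zero hR hm (by exact_mod_cast this.symm)

/-- Extension by zero. -/
noncomputable def Place.ext (g : Comp R L m → ℝ) : M → ℝ := Function.extend Q.ι g 0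

lemma Place.ext_apply (hR : 0 < R) (hm : 0 < m) (g : Comp R L m → ℝ) (a : Comp R L m) :
    Q.ext g (Q.ι a) = g a := (Q.inj hR hm).extend_apply _ _ _

lemma Place.ext_out (g : Comp R L m → ℝ) {q : M} (h : q ∉ Set.range Q.ι) : Q.ext g q = 0 :=
  Function.extend_apply' _ _ _ fun ⟨a, e⟩ => h ⟨a, e⟩

lemma Place.test (F : Frame M X) (hR : 0 < R) (hm : 0 < m) (Q : Place M F.o R L m)
    (g : Comp R L m → ℝ) {C : ℝ} (hC : 0 < C) (hl : ∀ a b, |g a - g b| ≤ C * cdist a b)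
    (hs : ∀ a, |g a| ≤ C * rad R L m) : F.IsTest (Q.ext g) C := by
  refine ⟨hC, Q.ext_out g Q.base, fun p q => ?_⟩
  by_cases hp : p ∈ Set.range Q.ι <;> by_cases hq : q ∈ Set.range Q.ι
  · obtain ⟨a, rfl⟩ := hp; obtain ⟨b, rfl⟩ := hq
    rw [Q.ext_apply hR hm, Q.ext_apply hR hm, Q.dist_eq]
    exact hl a b
  · obtain ⟨a, rfl⟩ := hp
    rw [Q.ext_apply hR hm, Q.ext_out g hq, sub_zero]
    exact (hs a).trans (mul_le_mul_of_nonneg_left (Q.far a q hq) hC.le)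
  · obtain ⟨b, rfl⟩ := hq
    rw [Q.ext_apply hR hm, Q.ext_out g hp, zero_sub, abs_neg, dist_comm]
    exact (hs b).trans (mul_le_mul_of_nonneg_left (Q.far b p hp) hC.le)
  · rw [Q.ext_out g hp, Q.ext_out g hq]; simp only [sub_zero, abs_zero]; positivity

end Component

end Vale.Agent.P090
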