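/-
P090: the three estimates on the averaged pairings.
-/
import Vale.Agent.P090.Pairing

namespace Vale.Agent.P090

open Finset Function

section Tests

variable {R L m : ℕ} [NeZero L]

/-- A sheet weight times the full product of block averages. -/
noncomputable def wfun (x : Pos R L m) (s : Option Sheet → ℝ) (a : Comp R L m) : ℝ :=
  avgProd univ (a.1 - x) * s a.2

/-- The test with a primitive in one coordinate. -/
noncomputable def pfun (x : Pos R L m) (k : Colour R) (i : Fin m) (s : Option Sheet → ℝ)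
    (a : Comp R L m) : ℝ :=
  s a.2 * avgProd (univ.erase k) (a.1 - x) * prim ((a.1 - x) (k, i))

/-- The number of blocks. -/
abbrev blocks (R : ℕ) : ℝ := (Fintype.card (Colour R) : ℝ)

lemma one_le_blocks (R : ℕ) : 1 ≤ blocks R := Nat.one_le_cast.mpr Fintype.card_pos

/-- The constant of a weighted product with weight of constant `c`. -/
noncomputable def wConst (R L m : ℕ) (c : ℝ) : ℝ := (blocks R / L + c) / m

lemma wConst_pos (hm : 0 < m) {c : ℝ} (hc : 0 ≤ c) : 0 < wConst R L m c := by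
  have := one_le_blocks R
  have hL : (0 : ℝ) < L := by exact_mod_cast Nat.pos_of_ne_zero (NeZero.ne L)
  have : (0 : ℝ) < m := by exact_mod_cast hm
  unfold wConst
  positivity

lemma wfun_lip (hm : 0 < m) (x : Pos R L m) (s : Option Sheet → ℝ) {c : ℝ} (hc : 0 ≤ c)
    (h1 : ∀ u, |s u| ≤ 1) (h2 : ∀ u v, |s u - s v| ≤ c * odist R u v) (a b : Comp R L m) :
    |wfun x s a - wfun x s b| ≤ wConst R L m c * cdist a b := by
  have e : a.1 - x - (b.1 - x) = -(b.1 - a.1) := by abel
  have hp : |avgProd univ (a.1 - x) - avgProd univ (b.1 - x)|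
      ≤ blocks R * ((normB (b.1 - a.1) : ℝ) / (m * L)) := by
    have := avgProd_lip univ (a.1 - x) (b.1 - x)
    rwa [e, normB_neg, card_univ] at this
  have key : (m : ℝ) * odist R a.2 b.2 + normB (b.1 - a.1) ≤ cdist a b := by
    exact_mod_cast odist_le_cdist a b
  have hm' : (0 : ℝ) < m := by exact_mod_cast hm
  have hL : (0 : ℝ) < L := by exact_mod_cast Nat.pos_of_ne_zero (NeZero.ne L)
  have hK := one_le_blocks R
  have split : wfun x s a - wfun x s b = (avgProd univ (a.1 - x) - avgProd univ (b.1 - x)) * s a.2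
      + avgProd univ (b.1 - x) * (s a.2 - s b.2) := by unfold wfun; ring
  rw [split]
  refine (abs_add_le _ _).trans ?_
  rw [abs_mul, abs_mul]
  have t1 := (mul_le_of_le_one_right (abs_nonneg _) (h1 a.2)).trans hp
  have t2 := (mul_le_of_le_one_left (abs_nonneg _) (abs_avgProd_le univ (b.1 - x))).trans
    (h2 a.2 b.2)
  have n1 : (0 : ℝ) ≤ normB (b.1 - a.1) := Nat.cast_nonneg _
  have n2 : (0 : ℝ) ≤ odist R a.2 b.2 := Nat.cast_nonneg _
  have goal : blocks R * ((normB (b.1 - a.1) : ℝ) / (m * L)) + c * odist R a.2 b.2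
      ≤ wConst R L m c * cdist a b := by
    refine le_trans ?_ (mul_le_mul_of_nonneg_left key (wConst_pos hm hc).le)
    unfold wConst
    rw [div_mul_eq_mul_div, le_div_iff₀ hm']
    field_simp
    nlinarith [mul_nonneg hc n1, mul_nonneg (zero_le_one.trans hK) n2, mul_nonneg n2 hm'.le,
      mul_nonneg (mul_nonneg (zero_le_one.trans hK) n2) hm'.le, mul_nonneg (mul_nonneg hc n1) hL.le]
  linarith

lemma wfun_sup (hm : 0 < m) (x : Pos R L m) (s : Option Sheet → ℝ) {c : ℝ} (hc : 0 ≤ c)
    (h1 : ∀ u, |s u| ≤ 1) (a : Comp R L m) : |wfun x s a| ≤ wConst R L m c * rad R L m := by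
  have h : |wfun x s a| ≤ 1 := by
    rw [wfun, abs_mul]
    exact mul_le_one₀ (abs_avgProd_le _ _) (abs_nonneg _) (h1 _)
  refine h.trans ?_
  have hm' : (0 : ℝ) < m := by exact_mod_cast hm
  have hL : (0 : ℝ) < L := by exact_mod_cast Nat.pos_of_ne_zero (NeZero.ne L)
  have hK := one_le_blocks R
  unfold wConst rad
  push_cast
  rw [show (blocks R / L + c) / m * (m * (2 * (R : ℝ) + 2 * L + 2))
      = (blocks R / L + c) * (2 * R + 2 * L + 2) by field_simp]
  have : 1 ≤ blocks R / L * (2 * L) := by rw [div_mul_eq_mul_div, le_div_iff₀ hL]; nlinarith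
  have : 0 ≤ blocks R / L := by positivity
  nlinarith [(Nat.cast_nonneg R : (0 : ℝ) ≤ R)]

lemma pfun_lip (hR : 0 < R) (hm : 0 < m) (x : Pos R L m) (k : Colour R) (i : Fin m)
    (s : Option Sheet → ℝ) (h1 : ∀ u, |s u| ≤ 1)
    (h2 : ∀ u, u.map (colour R) = some k → s u = 0) (a b : Comp R L m) :
    |pfun x k i s a - pfun x k i s b| ≤ ((8 * L + 4 * blocks R + 1) / m) * cdist a b := by
  have hm' : (0 : ℝ) < m := by exact_mod_cast hm
  have hL : (0 : ℝ) < L := by exact_mod_cast Nat.pos_of_ne_zero (NeZero.ne L)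
  have hK := one_le_blocks R
  have sup : ∀ a : Comp R L m, |pfun x k i s a| ≤ 4 * L := by
    intro a
    rw [pfun, abs_mul, abs_mul]
    exact (mul_le_of_le_one_left (abs_nonneg _)
      (mul_le_one₀ (h1 _) (abs_nonneg _) (abs_avgProd_le _ _))).trans (abs_prim_le _)
  have any : |pfun x k i s a - pfun x k i s b| ≤ 8 * L :=
    (abs_sub _ _).trans (by linarith [sup a, sup b])
  have hc : (0 : ℝ) ≤ (8 * L + 4 * blocks R + 1) / m := by positivity
  have far : (m : ℝ) ≤ cdist a b → |pfun x k i s a - pfun x k i s b|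
      ≤ ((8 * L + 4 * blocks R + 1) / m) * cdist a b := by
    intro h
    refine any.trans (le_trans ?_ (mul_le_mul_of_nonneg_left h hc))
    rw [div_mul_cancel₀ _ hm'.ne']; linarith
  by_cases h : a.2 = b.2
  · by_cases hk : a.2.map (colour R) = some k
    · simp only [pfun, ← h, h2 _ hk, zero_mul, sub_self, abs_zero]
      positivity
    · have hmin : cdist a b = min (normW a.2 (b.1 - a.1)) (normB (b.1 - a.1) + 2 * m) := by
        rw [cdist, if_pos h]
      rcases min_cases (normW a.2 (b.1 - a.1)) (normB (b.1 - a.1) + 2 * m) with ⟨e, -⟩ | ⟨e, -⟩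
      · rw [hmin, e]
        have e' : a.1 - x - (b.1 - x) = -(b.1 - a.1) := by abel
        have ha := avgProd_lip (univ.erase k) (a.1 - x) (b.1 - x)
        rw [e', normB_neg] at ha
        have hb := prim_lip ((a.1 - x) (k, i)) ((b.1 - x) (k, i))
        rw [← Pi.sub_apply, e', Pi.neg_apply, za_neg] at hb
        have c1 : ((univ.erase k).card : ℝ) ≤ blocks R := by
          exact_mod_cast card_le_univ _
        have c2 : (normB (b.1 - a.1) : ℝ) ≤ normW a.2 (b.1 - a.1) := by
          exact_mod_cast normB_le_normW _ _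
        have c3 : (m : ℝ) * za ((b.1 - a.1) (k, i)) ≤ normW a.2 (b.1 - a.1) := by
          exact_mod_cast coord_le_normW hk _ _
        have split : pfun x k i s a - pfun x k i s b = s a.2 *
            ((avgProd (univ.erase k) (a.1 - x) - avgProd (univ.erase k) (b.1 - x))
              * prim ((a.1 - x) (k, i))
            + avgProd (univ.erase k) (b.1 - x)
              * (prim ((a.1 - x) (k, i)) - prim ((b.1 - x) (k, i)))) := by
          simp only [pfun, ← h]; ring
        rw [split, abs_mul]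
        refine (mul_le_of_le_one_left (abs_nonneg _) (h1 _)).trans ((abs_add_le _ _).trans ?_)
        rw [abs_mul, abs_mul]
        have t1 := mul_le_mul ha (abs_prim_le ((a.1 - x) (k, i))) (abs_nonneg _) (by positivity)
        have t2 := (mul_le_of_le_one_left (abs_nonneg _)
          (abs_avgProd_le (univ.erase k) (b.1 - x))).trans hb
        set W : ℝ := ↑(normW a.2 (b.1 - a.1))
        have hW : 0 ≤ W := Nat.cast_nonneg _
        have : ((univ.erase k).card : ℝ) * ((normB (b.1 - a.1) : ℝ) / (m * L)) * (4 * L)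
            + za ((b.1 - a.1) (k, i)) ≤ ((8 * L + 4 * blocks R + 1) / m) * W := by
          have n1 : (0 : ℝ) ≤ normB (b.1 - a.1) := Nat.cast_nonneg _
          field_simp
          nlinarith [mul_le_mul c1 c2 n1 (zero_le_one.trans hK), mul_nonneg hW hL.le,
            mul_le_mul_of_nonneg_left c3 hL.le]
        linarith
      · refine far ?_
        rw [hmin, e]
        exact_mod_cast (show m ≤ normB (b.1 - a.1) + 2 * m by omega)
  · refine far ?_
    rw [cdist, if_neg h]
    have := Nat.le_mul_of_pos_right m (odist_pos hR h)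
    exact_mod_cast (show m ≤ m * odist R a.2 b.2 + normB (b.1 - a.1) by omega)

lemma pfun_sup (hm : 0 < m) (x : Pos R L m) (k : Colour R) (i : Fin m)
    (s : Option Sheet → ℝ) (h1 : ∀ u, |s u| ≤ 1) (a : Comp R L m) :
    |pfun x k i s a| ≤ ((8 * L + 4 * blocks R + 1) / m) * rad R L m := by
  have hm' : (0 : ℝ) < m := by exact_mod_cast hm
  have hK := one_le_blocks R
  have hL : (1 : ℝ) ≤ L := by exact_mod_cast Nat.pos_of_ne_zero (NeZero.ne L)
  have h : |pfun x k i s a| ≤ 4 * L := by
    rw [pfun, abs_mul, abs_mul]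
    exact (mul_le_of_le_one_left (abs_nonneg _)
      (mul_le_one₀ (h1 _) (abs_nonneg _) (abs_avgProd_le _ _))).trans (abs_prim_le _)
  refine h.trans ?_
  unfold rad
  push_cast
  rw [div_mul_eq_mul_div, le_div_iff₀ hm']
  nlinarith [mul_le_mul_of_nonneg_left hL hm'.le, (Nat.cast_nonneg R : (0 : ℝ) ≤ R),
    mul_nonneg hm'.le (Nat.cast_nonneg R : (0 : ℝ) ≤ R), mul_nonneg hm'.le (zero_le_one.trans hK),
    mul_nonneg (mul_nonneg hm'.le (zero_le_one.trans hK)) (Nat.cast_nonneg R : (0 : ℝ) ≤ R)]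

/-- The basic step. -/
noncomputable def unitStep (k : Colour R) (i : Fin m) : Pos R L m := Pi.single (k, i) 1

lemma za_one_le {n : ℕ} [NeZero n] : za (1 : ZMod n) ≤ 1 := by
  by_cases h : n = 1
  · subst h; simp [za, Subsingleton.elim (1 : ZMod 1) 0]
  · have : Fact (1 < n) := ⟨by have := NeZero.ne n; omega⟩
    refine le_trans ?_ (le_of_eq (ZMod.val_one n))
    rw [za, ZMod.valMinAbs_natAbs_eq_min]
    exact min_le_left _ _

lemma normW_step (γ : Sheet) (i : Fin m) :
    normW (some γ) (unitStep (colour R γ) i : Pos R L m) ≤ 1 := by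
  refine Finset.sup_le fun b _ => ?_
  by_cases hb : colour R γ = b
  · subst hb
    rw [if_pos (by simp), blockSum, sum_eq_single i]
    · simp only [unitStep, Pi.single_eq_same]; exact za_one_le
    · intro j _ hj; simp [unitStep, hj, za_zero]
    · simp
  · rw [if_neg (by simpa using hb)]
    have : blockMax b (unitStep (colour R γ) i : Pos R L m) = 0 :=
      Nat.le_zero.mp (Finset.sup_le fun j _ => by
        simp [unitStep, za_zero, Ne.symm hb])
    rw [this, mul_zero]; omega

lemma pfun_shift (x : Pos R L m) (k : Colour R) (i : Fin m) (s : Option Sheet → ℝ)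
    (a : Comp R L m) :
    pfun (x - unitStep k i) k i s a - pfun x k i s a
      = s a.2 * avgProd (univ.erase k) (a.1 - x) * tri ((a.1 - x) (k, i)) := by
  have e : a.1 - (x - unitStep k i) = a.1 - x + unitStep k i := by abel
  have h1 : (a.1 - x + unitStep k i : Pos R L m) (k, i) = (a.1 - x) (k, i) + 1 := by
    simp [unitStep]
  have h2 : avgProd (univ.erase k) (a.1 - x + unitStep k i) = avgProd (univ.erase k) (a.1 - x) := by
    refine prod_congr rfl fun b hb => ?_
    have hb' : b ≠ k := (mem_erase.mp hb).1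
    simp [avg, unitStep, hb']
  rw [pfun, pfun, e, h1, h2, prim_succ]
  ring

omit [NeZero L] in
lemma sum_tri_block (hm : 0 < m) (x : Pos R L m) (k : Colour R) (s : Option Sheet → ℝ)
    (a : Comp R L m) :
    ∑ i, s a.2 * avgProd (univ.erase k) (a.1 - x) * tri ((a.1 - x) (k, i))
      = m * wfun x s a := by
  have hm' : (m : ℝ) ≠ 0 := by exact_mod_cast hm.ne'
  rw [← mul_sum, wfun, avgProd, avgProd, ← mul_prod_erase univ _ (mem_univ k), avg]
  field_simp

end Tests

section Averages

variable {M X : Type*} [MetricSpace M] [NormedAddCommGroup X] [NormedSpace ℝ X]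
  (F : Frame M X) {R L m : ℕ} [NeZero L] (Q : Place M F.o R L m)

/-- The averaged pairing of the image of sheet `γ` against a weight. -/
noncomputable def avgPair (T : X →L[ℝ] X) (γ : Sheet) (s : Option Sheet → ℝ) : ℝ :=
  (∑ x : Pos R L m, F.pr (Q.ext (wfun x s)) (T (F.δ (Q.ι (x, some γ)))))
    / Fintype.card (Pos R L m)

variable (hR : 0 < R) (hm : 0 < m)
include hR hm

lemma wfun_test (x : Pos R L m) (s : Option Sheet → ℝ) {c : ℝ} (hc : 0 ≤ c)
    (h1 : ∀ u, |s u| ≤ 1) (h2 : ∀ u v, |s u - s v| ≤ c * odist R u v) :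
    F.IsTest (Q.ext (wfun x s)) (wConst R L m c) :=
  Q.test F hR hm _ (wConst_pos hm hc) (wfun_lip hm x s hc h1 h2) (wfun_sup hm x s hc h1)

omit hm in
lemma bounded_weight {s : Option Sheet → ℝ} (h1 : ∀ u, |s u| ≤ 1) (u v : Option Sheet) :
    |s u - s v| ≤ 2 * odist R u v := by
  by_cases h : u = v
  · simp [h, odist_self]
  · have : (1 : ℝ) ≤ odist R u v := by exact_mod_cast odist_pos hR h
    have := abs_sub (s u) (s v)
    linarith [h1 u, h1 v]

lemma wfun_test' (x : Pos R L m) (s : Option Sheet → ℝ) (h1 : ∀ u, |s u| ≤ 1) :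
    F.IsTest (Q.ext (wfun x s)) (wConst R L m 2) :=
  wfun_test F Q hR hm x s zero_le_two h1 (bounded_weight hR h1)

lemma avgPair_combo {β : Type*} (T : X →L[ℝ] X) (γ : Sheet) (S : Finset β) (c : β → ℝ)
    (s : β → Option Sheet → ℝ) (h : ∀ b ∈ S, ∀ u, |s b u| ≤ 1) :
    avgPair F Q T γ (fun u => ∑ b ∈ S, c b * s b u) = ∑ b ∈ S, c b * avgPair F Q T γ (s b) := by
  unfold avgPair
  simp only [← mul_div_assoc, ← sum_div, mul_sum]
  rw [sum_comm]
  congr 1
  refine sum_congr rfl fun x _ => ?_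
  rw [← F.pr_combo S (fun b => Q.ext (wfun x (s b))) c
    (fun b hb => ⟨_, wfun_test' F Q hR hm x (s b) (h b hb)⟩)]
  congr 2
  funext p
  by_cases hp : p ∈ Set.range Q.ι
  · obtain ⟨a, rfl⟩ := hp
    simp only [Q.ext_apply hR hm, wfun, mul_sum]
    exact sum_congr rfl fun b _ => by ring
  · simp [Q.ext_out _ hp]

lemma avgPair_add (T : X →L[ℝ] X) (γ : Sheet) (s t : Option Sheet → ℝ)
    (hs : ∀ u, |s u| ≤ 1) (ht : ∀ u, |t u| ≤ 1) :
    avgPair F Q T γ (fun u => s u + t u) = avgPair F Q T γ s + avgPair F Q T γ t := by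
  have := avgPair_combo F Q hR hm T γ (univ : Finset Bool) (fun _ => 1)
    (fun b => if b then s else t) (by intro b _ u; cases b <;> simp [hs, ht])
  simpa [Fintype.sum_bool] using this

variable {T : X →L[ℝ] X} {Λ : ℝ} (hT : ‖T‖ ≤ Λ)
include hT

/-- Colours other than that of `γ` carry little. -/
lemma avgPair_bad (γ : Sheet) (s : Option Sheet → ℝ) (h1 : ∀ u, |s u| ≤ 1)
    (h2 : ∀ u, u.map (colour R) = some (colour R γ) → s u = 0) :
    |avgPair F Q T γ s| ≤ Λ * ((8 * L + 4 * blocks R + 1) / m) := by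
  set k := colour R γ
  set C := ((8 * L + 4 * blocks R + 1) / m : ℝ) with hC
  have hm' : (0 : ℝ) < m := by exact_mod_cast hm
  have hCpos : 0 < C := by have := one_le_blocks R; rw [hC]; positivity
  have hΛ : 0 ≤ Λ := (norm_nonneg _).trans hT
  have tst : ∀ x i, F.IsTest (Q.ext (pfun x k i s)) C := fun x i =>
    Q.test F hR hm _ hCpos (pfun_lip hR hm x k i s h1 h2) (pfun_sup hm x k i s h1)
  set τ : Pos R L m → X := fun x => T (F.δ (Q.ι (x, some γ))) with hτ
  have per : ∀ i, |∑ x, (F.pr (Q.ext (pfun (x - unitStep k i) k i s)) (τ x)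
      - F.pr (Q.ext (pfun x k i s)) (τ x))| ≤ Fintype.card (Pos R L m) * (C * Λ) := by
    intro i
    rw [sum_sub_distrib, ← Equiv.sum_comp (Equiv.addRight (unitStep k i : Pos R L m)),
      ← sum_sub_distrib]
    simp only [Equiv.coe_addRight, add_sub_cancel_right]
    refine (abs_sum_le_sum_abs _ _).trans (le_of_le_of_eq (b := ∑ _x : Pos R L m, C * Λ)
      (sum_le_sum fun x _ => ?_) (by rw [sum_const, card_univ, nsmul_eq_mul]))
    refine (F.pr_map_sub (tst x i) T hT _ _).trans (mul_le_mul_of_nonneg_left ?_ hCpos.le)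
    refine mul_le_of_le_one_right hΛ ?_
    rw [Q.dist_eq]
    have h : cdist (x + unitStep k i, some γ) (x, some γ) ≤ 1 := by
      rw [cdist, if_pos rfl]
      refine (min_le_left _ _).trans ?_
      dsimp only
      rw [show x - (x + unitStep k i) = -(unitStep k i : Pos R L m) by abel, normW_neg]
      exact normW_step γ i
    exact_mod_cast h
  have total : ∑ i, ∑ x, (F.pr (Q.ext (pfun (x - unitStep k i) k i s)) (τ x)
      - F.pr (Q.ext (pfun x k i s)) (τ x))
      = m * ∑ x, F.pr (Q.ext (wfun x s)) (τ x) := by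
    rw [sum_comm, mul_sum]
    refine sum_congr rfl fun x _ => ?_
    have hrep : ∀ p, (∑ i, (F.pr (Q.ext (pfun (x - unitStep k i) k i s))
        - F.pr (Q.ext (pfun x k i s)))) (F.δ p) = (m : ℝ) * Q.ext (wfun x s) p := by
      intro p
      simp only [FunLike.coe_sum, Finset.sum_apply, FunLike.coe_sub, Pi.sub_apply,
        Pi.sub_apply, F.pr_apply (tst _ _)]
      by_cases hp : p ∈ Set.range Q.ι
      · obtain ⟨a, rfl⟩ := hp
        simp only [Q.ext_apply hR hm, pfun_shift, sum_tri_block hm]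
      · simp [Q.ext_out _ hp]
    have hw := wfun_test' F Q hR hm x s h1
    have := congrArg (fun φ => φ (τ x)) (F.clm_ext (φ := ∑ i,
      (F.pr (Q.ext (pfun (x - unitStep k i) k i s)) - F.pr (Q.ext (pfun x k i s))))
      (ψ := (m : ℝ) • F.pr (Q.ext (wfun x s))) fun p => by
        rw [hrep p]; simp [F.pr_apply hw])
    simpa using this
  have hcard : (0 : ℝ) < Fintype.card (Pos R L m) := by exact_mod_cast Fintype.card_pos
  have bound : (m : ℝ) * |∑ x, F.pr (Q.ext (wfun x s)) (τ x)|
      ≤ m * (Fintype.card (Pos R L m) * (C * Λ)) := by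
    rw [← abs_of_pos hm', ← abs_mul, ← total, abs_of_pos hm']
    refine (abs_sum_le_sum_abs _ _).trans ((sum_le_sum fun i _ => per i).trans_eq ?_)
    rw [sum_const, card_univ, nsmul_eq_mul, Fintype.card_fin]
  rw [avgPair, abs_div, abs_of_pos hcard, div_le_iff₀ hcard]
  refine (le_of_mul_le_mul_left bound hm').trans_eq ?_
  ring

/-- The total is nearly one. -/
lemma avgPair_one (γ : Sheet) (h0 : ∀ x : Pos R L m,
      ‖T (F.δ (Q.ι (x, none))) - F.δ (Q.ι (x, none))‖ ≤ 1) :
    |avgPair F Q T γ (fun _ => 1) - 1| ≤ wConst R L m 0 * (Λ * (m * R) + 1) := by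
  have hcard : (0 : ℝ) < Fintype.card (Pos R L m) := by exact_mod_cast Fintype.card_pos
  have each : ∀ x : Pos R L m, |F.pr (Q.ext (wfun x fun _ => 1)) (T (F.δ (Q.ι (x, some γ)))) - 1|
      ≤ wConst R L m 0 * (Λ * (m * R) + 1) := by
    intro x
    have t : F.IsTest (Q.ext (wfun x fun _ => 1)) (wConst R L m 0) :=
      wfun_test F Q hR hm x _ le_rfl (fun _ => by simp) (fun u v => by simp)
    have h1 := F.pr_map_sub t T hT (Q.ι (x, some γ)) (Q.ι (x, none))
    have h2 := (F.pr_le t (T (F.δ (Q.ι (x, none))) - F.δ (Q.ι (x, none)))).trans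
      (mul_le_mul_of_nonneg_left (h0 x) t.1.le)
    rw [map_sub, F.pr_apply t, Q.ext_apply hR hm] at h2
    have hv : wfun x (fun _ => 1) ((x, none) : Comp R L m) = 1 := by
      simp [wfun, avgProd, avg, tri_zero, hm.ne']
    rw [hv] at h2
    have hd : cdist ((x, some γ) : Comp R L m) (x, none) = m * R := by
      simp [cdist, odist, normB_zero]
    rw [Q.dist_eq, hd] at h1
    push_cast at h1
    rw [mul_add, mul_one]
    rw [abs_le] at *
    constructor <;> linarith
  rw [avgPair, div_sub_one hcard.ne', abs_div,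
    abs_of_pos hcard, div_le_iff₀ hcard]
  have e : (∑ x : Pos R L m, F.pr (Q.ext (wfun x fun _ => 1)) (T (F.δ (Q.ι (x, some γ)))))
      - Fintype.card (Pos R L m)
      = ∑ x : Pos R L m, (F.pr (Q.ext (wfun x fun _ => 1)) (T (F.δ (Q.ι (x, some γ)))) - 1) := by
    rw [sum_sub_distrib]; simp
  rw [e]
  refine (abs_sum_le_sum_abs _ _).trans ((sum_le_sum fun x _ => each x).trans_eq ?_)
  rw [sum_const, card_univ, nsmul_eq_mul, mul_comm]

/-- Slowly varying weights see neighbouring sheets alike. -/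
lemma avgPair_mv (γ : Sheet) (i : Fin 4) (s : Option Sheet → ℝ) {c : ℝ} (hc : 0 ≤ c)
    (h1 : ∀ u, |s u| ≤ 1) (h2 : ∀ u v, |s u - s v| ≤ c * odist R u v) :
    |avgPair F Q T γ s - avgPair F Q T (mv i γ) s| ≤ wConst R L m c * (Λ * m) := by
  have hcard : (0 : ℝ) < Fintype.card (Pos R L m) := by exact_mod_cast Fintype.card_pos
  have hΛ : 0 ≤ Λ := (norm_nonneg _).trans hT
  rw [avgPair, avgPair, ← sub_div, ← sum_sub_distrib, abs_div, abs_of_pos hcard,
    div_le_iff₀ hcard]
  refine (abs_sum_le_sum_abs _ _).trans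
    (le_of_le_of_eq (b := ∑ _x : Pos R L m, wConst R L m c * (Λ * m))
      (sum_le_sum fun x _ => ?_) (by rw [sum_const, card_univ, nsmul_eq_mul, mul_comm]))
  refine (F.pr_map_sub (wfun_test F Q hR hm x s hc h1 h2) T hT _ _).trans
    (mul_le_mul_of_nonneg_left (mul_le_mul_of_nonneg_left ?_ hΛ) (wConst_pos hm hc).le)
  rw [Q.dist_eq]
  have h : cdist ((x, some γ) : Comp R L m) (x, some (mv i γ)) ≤ m := by
    unfold cdist
    split_ifs with h
    · simp [normW_zero, normB_zero]
    · simp only [sub_self, normB_zero, add_zero]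
      exact (Nat.mul_le_mul_left m (sdist_mv R i γ)).trans_eq (mul_one m)
  exact_mod_cast h

end Averages

end Vale.Agent.P090
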