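/-
P090: no finite-rank operator of small norm is close to the identity on the anchor sheet.
-/
import Vale.Agent.P090.Estimates

namespace Vale.Agent.P090

open Finset Function

lemma mv_injective (i : Fin 4) : Injective (mv i) := fun a b e => by
  have := congrArg (act (flipL (some (i, true)))) e
  simp only [mv, act_flip] at this
  exact this

section Bump

variable (r : ℕ) (i : Fin 4)

/-- The distance from `u` to the pair `a`, `mv i a`. -/
noncomputable def pairDist (a u : Sheet) : ℕ :=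
  min (sdist (2 * r) u a) (sdist (2 * r) u (mv i a))

/-- A bump around a pair. -/
noncomputable def bump (a u : Sheet) : ℝ := max 0 (1 - (pairDist r i a u : ℝ) / r)

/-- A combination of bumps. -/
noncomputable def psi (U : Finset Sheet) (σ : Sheet → ℝ) : Option Sheet → ℝ
  | none => 0
  | some u => ∑ a ∈ U, σ a * bump r i a u

variable {r i}

lemma pairDist_lip (a u v : Sheet) :
    pairDist r i a u ≤ sdist (2 * r) u v + pairDist r i a v := by
  have h1 := sdist_triangle (2 * r) u v a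
  have h2 := sdist_triangle (2 * r) u v (mv i a)
  unfold pairDist
  omega

lemma bump_nonneg (a u : Sheet) : 0 ≤ bump r i a u := le_max_left _ _

lemma bump_le_one (a u : Sheet) : bump r i a u ≤ 1 :=
  max_le zero_le_one (sub_le_self _ (by positivity))

lemma bump_lip (hr : 0 < r) (a u v : Sheet) :
    |bump r i a u - bump r i a v| ≤ (sdist (2 * r) u v : ℝ) / r := by
  have hr' : (0 : ℝ) < r := by exact_mod_cast hr
  have h1 : (pairDist r i a u : ℝ) ≤ sdist (2 * r) u v + pairDist r i a v := by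
    exact_mod_cast pairDist_lip a u v
  have h2 : (pairDist r i a v : ℝ) ≤ sdist (2 * r) v u + pairDist r i a u := by
    exact_mod_cast pairDist_lip a v u
  rw [sdist_comm (2 * r) v u] at h2
  have g1 := div_le_div_of_nonneg_right h1 hr'.le
  have g2 := div_le_div_of_nonneg_right h2 hr'.le
  rw [add_div] at g1 g2
  refine (abs_max_sub_max_le_max _ _ _ _).trans (max_le ?_ ?_)
  · simp only [sub_self, abs_zero]; positivity
  · rw [abs_le]; constructor <;> linarith

lemma bump_ne_zero (hr : 0 < r) {a u : Sheet} (h : bump r i a u ≠ 0) : pairDist r i a u < r := by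
  by_contra hge
  apply h
  have hge' : (r : ℝ) ≤ pairDist r i a u := by exact_mod_cast Nat.not_lt.mp hge
  refine max_eq_left (sub_nonpos.mpr ?_)
  rw [one_le_div (by exact_mod_cast hr)]
  exact hge'

variable {U : Finset Sheet} {c0 : Fin (numCol (2 * r))}

lemma pair_unique (hr : 2 ≤ r) (hU : ∀ a ∈ U, chi (2 * r) (mv i a) = c0) {a b u : Sheet}
    (ha : a ∈ U) (hb : b ∈ U) (h1 : bump r i a u ≠ 0) (h2 : bump r i b u ≠ 0) : a = b := by
  by_contra hne
  have sep := chi_sep ((hU a ha).trans (hU b hb).symm) fun e => hne (mv_injective i e)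
  have p1 := bump_ne_zero (by omega) h1
  have p2 := bump_ne_zero (by omega) h2
  have d1 := sdist_mv (2 * r) i a
  have d2 := sdist_mv (2 * r) i b
  have da : sdist (2 * r) u a ≤ r ∧ sdist (2 * r) u (mv i a) ≤ r := by
    have t1 := sdist_triangle (2 * r) u a (mv i a)
    have t2 := sdist_triangle (2 * r) u (mv i a) a
    rw [sdist_comm (2 * r) (mv i a) a] at t2
    unfold pairDist at p1; omega
  have db : sdist (2 * r) u b ≤ r ∧ sdist (2 * r) u (mv i b) ≤ r := by
    have t1 := sdist_triangle (2 * r) u b (mv i b)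
    have t2 := sdist_triangle (2 * r) u (mv i b) b
    rw [sdist_comm (2 * r) (mv i b) b] at t2
    unfold pairDist at p2; omega
  have t := sdist_triangle (2 * r) (mv i a) u (mv i b)
  rw [sdist_comm (2 * r) (mv i a) u] at t
  omega

lemma psi_single (hr : 2 ≤ r) (hU : ∀ a ∈ U, chi (2 * r) (mv i a) = c0) (σ : Sheet → ℝ)
    {a u : Sheet} (ha : a ∈ U) (h : bump r i a u ≠ 0) :
    psi r i U σ (some u) = σ a * bump r i a u := by
  refine sum_eq_single_of_mem a ha fun b hb hne => ?_
  by_cases h0 : bump r i b u = 0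
  · simp [h0]
  · exact absurd (pair_unique hr hU hb ha h0 h) hne

lemma psi_le_one (hr : 2 ≤ r) (hU : ∀ a ∈ U, chi (2 * r) (mv i a) = c0) (σ : Sheet → ℝ)
    (hσ : ∀ a, |σ a| ≤ 1) : ∀ u, |psi r i U σ u| ≤ 1
  | none => by simp [psi]
  | some u => by
    by_cases h : ∃ a ∈ U, bump r i a u ≠ 0
    · obtain ⟨a, ha, h⟩ := h
      rw [psi_single hr hU σ ha h, abs_mul]
      exact mul_le_one₀ (hσ a) (abs_nonneg _)
        (by rw [abs_of_nonneg (bump_nonneg a u)]; exact bump_le_one a u)
    · push Not at h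
      rw [psi, sum_eq_zero fun a ha => by rw [h a ha, mul_zero]]
      simp

lemma psi_lip (hr : 2 ≤ r) (hU : ∀ a ∈ U, chi (2 * r) (mv i a) = c0) (σ : Sheet → ℝ)
    (hσ : ∀ a, |σ a| ≤ 1) :
    ∀ u v, |psi r i U σ u - psi r i U σ v| ≤ (2 / r : ℝ) * odist (2 * r) u v := by
  classical
  have hr' : (0 : ℝ) < r := by exact_mod_cast (show 0 < r by omega)
  intro u v
  have anchor : ∀ w, |psi r i U σ (some w)| ≤ (2 / r : ℝ) * ((2 * r : ℕ) : ℝ) := fun w => by
    refine (psi_le_one hr hU σ hσ (some w)).trans ?_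
    push_cast
    field_simp
    norm_num
  match u, v with
  | none, none => simp [psi, odist]
  | none, some w =>
    show |0 - psi r i U σ (some w)| ≤ (2 / r : ℝ) * ((2 * r : ℕ) : ℝ)
    rw [zero_sub, abs_neg]; exact anchor w
  | some w, none =>
    show |psi r i U σ (some w) - 0| ≤ (2 / r : ℝ) * ((2 * r : ℕ) : ℝ)
    rw [sub_zero]; exact anchor w
  | some u, some v =>
    show |∑ a ∈ U, σ a * bump r i a u - ∑ a ∈ U, σ a * bump r i a v|
      ≤ (2 / r : ℝ) * sdist (2 * r) u v
    rw [← sum_sub_distrib]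
    set S := U.filter fun a => bump r i a u ≠ 0 ∨ bump r i a v ≠ 0
    rw [← sum_subset (filter_subset _ U) (fun a ha hn => by
      have h' : ¬(bump r i a u ≠ 0 ∨ bump r i a v ≠ 0) := fun h => hn (mem_filter.mpr ⟨ha, h⟩)
      push Not at h'
      simp [h'.1, h'.2])]
    have hS : S.card ≤ 2 := by
      have h1 : (U.filter fun a => bump r i a u ≠ 0).card ≤ 1 := card_le_one.mpr fun a ha b hb => by
        simp only [mem_filter] at ha hb; exact pair_unique hr hU ha.1 hb.1 ha.2 hb.2
      have h2 : (U.filter fun a => bump r i a v ≠ 0).card ≤ 1 := card_le_one.mpr fun a ha b hb => by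
        simp only [mem_filter] at ha hb; exact pair_unique hr hU ha.1 hb.1 ha.2 hb.2
      simp only [S, filter_or]
      exact (card_union_le _ _).trans (by omega)
    have hS' : (S.card : ℝ) ≤ 2 := by exact_mod_cast hS
    have hd : (0 : ℝ) ≤ (sdist (2 * r) u v : ℝ) / r := by positivity
    calc |∑ a ∈ S, (σ a * bump r i a u - σ a * bump r i a v)|
        ≤ ∑ a ∈ S, (sdist (2 * r) u v : ℝ) / r :=
          (abs_sum_le_sum_abs _ _).trans (sum_le_sum fun a _ => by
            rw [← mul_sub, abs_mul]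
            exact (mul_le_of_le_one_left (abs_nonneg _) (hσ a)).trans (bump_lip (by omega) a u v))
      _ ≤ 2 * ((sdist (2 * r) u v : ℝ) / r) := by
          rw [sum_const, nsmul_eq_mul]; exact mul_le_mul_of_nonneg_right hS' hd
      _ = (2 / r : ℝ) * sdist (2 * r) u v := by ring

lemma psi_fst (hr : 2 ≤ r) (hU : ∀ a ∈ U, chi (2 * r) (mv i a) = c0) (σ : Sheet → ℝ)
    {a : Sheet} (ha : a ∈ U) :
    psi r i U σ (some a) = σ a ∧ psi r i U σ (some (mv i a)) = σ a := by
  have b1 : bump r i a a = 1 := by simp [bump, pairDist, sdist_self]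
  have b2 : bump r i a (mv i a) = 1 := by simp [bump, pairDist, sdist_self]
  constructor
  · rw [psi_single hr hU σ ha (by rw [b1]; norm_num), b1, mul_one]
  · rw [psi_single hr hU σ ha (by rw [b2]; norm_num), b2, mul_one]

end Bump

section Contradiction

variable {M X : Type*} [MetricSpace M] [NormedAddCommGroup X] [NormedSpace ℝ X]
  (F : Frame M X) {R L m : ℕ} [NeZero L] (Q : Place M F.o R L m)

/-- The weight of one sheet. -/
noncomputable def ind (a : Sheet) : Option Sheet → ℝ := fun u => if u = some a then 1 else 0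

lemma abs_ind (a : Sheet) (u : Option Sheet) : |ind a u| ≤ 1 := by
  unfold ind; split_ifs <;> norm_num

open Classical in
/-- The matched weights. -/
noncomputable def mu (T : X →L[ℝ] X) (γ a : Sheet) : ℝ :=
  if colour R a = colour R γ then avgPair F Q T γ (ind a) else 0

/-- Weights on far components are small. -/
lemma tail_small (hR : 0 < R) (hm : 0 < m) (T : X →L[ℝ] X)
    (hfin : FiniteDimensional ℝ (LinearMap.range (T : X →ₗ[ℝ] X))) {ε : ℝ} (hε : 0 < ε) :
    ∃ J : Finset Nat.Primes, ∀ γ (s : Option Sheet → ℝ), (∀ u, |s u| ≤ 1) → s none = 0 →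
      (∀ a : Sheet, a.1 ∈ J → s (some a) = 0) → |avgPair F Q T γ s| ≤ ε := by
  classical
  set W := LinearMap.range (T : X →ₗ[ℝ] X)
  set p0 : M := Q.ι (0, none)
  set B : ℝ := ‖T‖ * (rad R L m + dist p0 F.o)
  set K : Set X := (fun w : W => (w : X)) '' Metric.closedBall 0 B
  have hK : IsCompact K := (isCompact_closedBall _ _).image continuous_subtype_val
  set C := wConst R L m 2
  have hC : 0 < C := wConst_pos hm zero_le_two
  set η := ε / (2 * C) with hη
  have hηpos : 0 < η := by rw [hη]; positivity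
  obtain ⟨t, -, htf, hcov⟩ := hK.finite_cover_balls hηpos
  have near : ∀ v : X, ∃ J : Finset Nat.Primes, ∀ φ : X →L[ℝ] ℝ,
      ‖φ‖ ≤ C → (∀ p, p ∉ Set.range Q.ι → φ (F.δ p) = 0) →
      (∀ x u, (∀ a, u = some a → a.1 ∈ J) → φ (F.δ (Q.ι (x, u))) = 0) → |φ v| ≤ C * η := by
    intro v
    have hd : Dense ((Submodule.span ℝ (Set.range F.δ)) : Set X) :=
      Submodule.dense_iff_topologicalClosure_eq_top.mpr F.dense
    obtain ⟨u, hu, huv⟩ := Metric.mem_closure_iff.mp (hd v) η hηpos
    have key : ∀ u ∈ Submodule.span ℝ (Set.range F.δ), ∃ J : Finset Nat.Primes, ∀ φ : X →L[ℝ] ℝ,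
        (∀ p, p ∉ Set.range Q.ι → φ (F.δ p) = 0) →
        (∀ x w, (∀ a, w = some a → a.1 ∈ J) → φ (F.δ (Q.ι (x, w))) = 0) → φ u = 0 := by
      intro u hu
      induction hu using Submodule.span_induction with
      | mem u hu =>
        obtain ⟨p, rfl⟩ := hu
        by_cases hp : p ∈ Set.range Q.ι
        · obtain ⟨⟨x, w⟩, rfl⟩ := hp
          exact ⟨(w.map fun a => a.1).toFinset,
            fun φ _ h => h x w fun a e => by simp [e]⟩
        · exact ⟨∅, fun φ h _ => h p hp⟩
      | zero => exact ⟨∅, fun φ _ _ => map_zero φ⟩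
      | add a b _ _ iha ihb =>
        obtain ⟨Ja, ha⟩ := iha
        obtain ⟨Jb, hb⟩ := ihb
        refine ⟨Ja ∪ Jb, fun φ h1 h2 => ?_⟩
        rw [map_add, ha φ h1 (fun x w hw => h2 x w fun c e => mem_union_left _ (hw c e)),
          hb φ h1 (fun x w hw => h2 x w fun c e => mem_union_right _ (hw c e)), add_zero]
      | smul c a _ iha =>
        obtain ⟨Ja, ha⟩ := iha
        exact ⟨Ja, fun φ h1 h2 => by rw [map_smul, ha φ h1 h2, smul_zero]⟩
    obtain ⟨J, hJ⟩ := key u hu
    refine ⟨J, fun φ hn h1 h2 => ?_⟩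
    have : φ v = φ (v - u) := by rw [map_sub, hJ φ h1 h2, sub_zero]
    rw [this, ← Real.norm_eq_abs]
    refine (φ.le_opNorm _).trans (mul_le_mul hn ?_ (norm_nonneg _) hC.le)
    rw [← dist_eq_norm]; exact huv.le
  choose J hJ using near
  refine ⟨htf.toFinset.biUnion J, fun γ s h1 h0 hs => ?_⟩
  have hcard : (0 : ℝ) < Fintype.card (Pos R L m) := by exact_mod_cast Fintype.card_pos
  rw [avgPair, abs_div, abs_of_pos hcard, div_le_iff₀ hcard]
  refine (abs_sum_le_sum_abs _ _).trans (le_of_le_of_eq (b := ∑ _x : Pos R L m, ε)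
    (sum_le_sum fun x _ => ?_) (by rw [sum_const, card_univ, nsmul_eq_mul, mul_comm]))
  set v := T (F.δ (Q.ι (x, some γ)))
  have hv : v ∈ K := by
    refine ⟨⟨v, LinearMap.mem_range_self _ _⟩, ?_, rfl⟩
    rw [mem_closedBall_zero_iff]
    show ‖v‖ ≤ B
    refine (T.le_opNorm _).trans (mul_le_mul_of_nonneg_left ?_ (norm_nonneg T))
    have e : ‖F.δ (Q.ι (x, some γ))‖ = dist (Q.ι (x, some γ)) F.o := by
      rw [← F.dist_eq, F.δo, sub_zero]
    rw [e]
    refine (dist_triangle _ p0 _).trans (add_le_add ?_ le_rfl)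
    rw [Q.dist_eq]
    exact_mod_cast cdist_le _ _
  obtain ⟨v', hv't, hvv'⟩ := Set.mem_iUnion₂.mp (hcov hv)
  set φ := F.pr (Q.ext (wfun x s))
  have tst : F.IsTest (Q.ext (wfun x s)) C := wfun_test' F Q hR hm x s h1
  have hn : ‖φ‖ ≤ C := φ.opNorm_le_bound hC.le fun y => by
    rw [Real.norm_eq_abs]; exact F.pr_le tst y
  have hv' := hJ v' φ hn (fun p hp => by rw [F.pr_apply tst, Q.ext_out _ hp]) (fun y w hw => by
    rw [F.pr_apply tst, Q.ext_apply hR hm, wfun]
    cases w with
    | none => simp [h0]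
    | some a =>
      rw [hs a (mem_biUnion.mpr ⟨v', htf.mem_toFinset.mpr hv't, hw a rfl⟩), mul_zero])
  calc |φ v| = |φ v' + φ (v - v')| := by rw [map_sub, add_sub_cancel]
    _ ≤ |φ v'| + |φ (v - v')| := abs_add_le _ _
    _ ≤ C * η + C * η := by
        refine add_le_add hv' ((F.pr_le tst _).trans (mul_le_mul_of_nonneg_left ?_ hC.le))
        rw [← dist_eq_norm]; exact (Metric.mem_ball.mp hvv').le
    _ = ε := by rw [hη]; field_simp; ring

/-- A weight is read off from the matched weights up to the two error terms. -/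
lemma split_weight (hR : 0 < R) (hm : 0 < m) {T : X →L[ℝ] X} {Λ : ℝ} (hT : ‖T‖ ≤ Λ)
    (J : Finset Nat.Primes) {εt : ℝ}
    (hJ : ∀ γ (s : Option Sheet → ℝ), (∀ u, |s u| ≤ 1) → s none = 0 →
      (∀ a : Sheet, a.1 ∈ J → s (some a) = 0) → |avgPair F Q T γ s| ≤ εt)
    (γ : Sheet) (s : Option Sheet → ℝ) (h1 : ∀ u, |s u| ≤ 1) :
    |avgPair F Q T γ s - ∑ a ∈ J.sigma fun _ => univ, s (some a) * mu F Q T γ a|
      ≤ Λ * ((8 * L + 4 * blocks R + 1) / m) + εt := by
  classical
  set A : Finset Sheet := J.sigma fun _ => univ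
  set k := colour R γ
  set bad : Option Sheet → ℝ := fun u => if u.map (colour R) = some k then 0 else s u with hbad
  set tail : Option Sheet → ℝ := fun u =>
    if u.map (colour R) = some k ∧ ∀ a ∈ A, u ≠ some a then s u else 0 with htail
  set keep := A.filter fun a => colour R a = k
  set mid : Option Sheet → ℝ := fun u => ∑ a ∈ keep, s (some a) * ind a u with hmid
  have hmid1 : ∀ u, mid u = if ∃ a ∈ keep, u = some a then s u else 0 := by
    intro u
    by_cases h : ∃ a ∈ keep, u = some a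
    · obtain ⟨a, ha, rfl⟩ := h
      rw [if_pos ⟨a, ha, rfl⟩, hmid]; dsimp only
      rw [sum_eq_single_of_mem a ha fun b _ hne => by simp [ind, Ne.symm hne]]
      simp [ind]
    · rw [if_neg h, hmid]; dsimp only
      exact sum_eq_zero fun a ha => by rw [ind, if_neg fun e => h ⟨a, ha, e⟩, mul_zero]
  have b1 : ∀ u, |bad u| ≤ 1 := fun u => by rw [hbad]; dsimp only; split_ifs <;> simp [h1]
  have t1 : ∀ u, |tail u| ≤ 1 := fun u => by rw [htail]; dsimp only; split_ifs <;> simp [h1]
  have m1 : ∀ u, |mid u| ≤ 1 := fun u => by rw [hmid1]; split_ifs <;> simp [h1]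
  have bt : ∀ u, |bad u + tail u| ≤ 1 := by
    intro u
    simp only [hbad, htail]
    by_cases hk : u.map (colour R) = some k
    · rw [if_pos hk, zero_add]; split_ifs <;> simp [h1]
    · rw [if_neg hk, if_neg fun h => hk h.1, add_zero]; exact h1 u
  have es : s = fun u => (bad u + tail u) + mid u := by
    funext u
    rw [hmid1]
    simp only [hbad, htail]
    by_cases hk : u.map (colour R) = some k
    · rw [if_pos hk, zero_add]
      by_cases ha : ∀ a ∈ A, u ≠ some a
      · rw [if_pos ⟨hk, ha⟩, if_neg (by rintro ⟨a, ha', e⟩; exact ha a (mem_filter.mp ha').1 e),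
          add_zero]
      · rw [if_neg fun h => ha h.2, zero_add]
        push Not at ha
        obtain ⟨a, ha', rfl⟩ := ha
        rw [if_pos ⟨a, mem_filter.mpr ⟨ha', by simpa using hk⟩, rfl⟩]
    · rw [if_neg hk, if_neg fun h => hk h.1, if_neg (by
        rintro ⟨a, ha, rfl⟩; exact hk (by simp [(mem_filter.mp ha).2]))]
      simp
  have emid : avgPair F Q T γ mid = ∑ a ∈ A, s (some a) * mu F Q T γ a := by
    rw [hmid, avgPair_combo F Q hR hm T γ keep (fun a => s (some a)) ind
      (fun a _ => abs_ind a), sum_filter]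
    refine sum_congr rfl fun a _ => ?_
    unfold mu
    by_cases h : colour R a = k
    · rw [if_pos h, if_pos h]
    · rw [if_neg h, if_neg h, mul_zero]
  have e1 := avgPair_bad F Q hR hm hT γ bad b1 (fun u hu => by rw [hbad]; exact if_pos hu)
  have e2 := hJ γ tail t1 (by simp [htail]) (fun a ha => by
    simp only [htail]
    rw [if_neg]; rintro ⟨-, h⟩
    exact h a (by simp [A, ha]) rfl)
  rw [es, avgPair_add F Q hR hm T γ _ _ bt m1, avgPair_add F Q hR hm T γ _ _ b1 t1, emid, ← es,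
    add_sub_cancel_right]
  exact (abs_add_le _ _).trans (add_le_add e1 e2)

end Contradiction

/-- The core statement. -/
theorem core {M X : Type*} [MetricSpace M] [NormedAddCommGroup X] [NormedSpace ℝ X]
    (F : Frame M X) {r L m : ℕ} [NeZero L] (Q : Place M F.o (2 * r) L m) (hr : 2 ≤ r)
    (hm : 0 < m) {T : X →L[ℝ] X} {Λ : ℝ} (hT : ‖T‖ ≤ Λ)
    (hfin : FiniteDimensional ℝ (LinearMap.range (T : X →ₗ[ℝ] X)))
    (h0 : ∀ x : Pos (2 * r) L m,
      ‖T (F.δ (Q.ι (x, none))) - F.δ (Q.ι (x, none))‖ ≤ 1)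
    (p1 : wConst (2 * r) L m 0 * (Λ * (m * (2 * r : ℕ)) + 1) ≤ 1 / 10)
    (p2 : Λ * ((8 * L + 4 * blocks (2 * r) + 1) / m) ≤ 1 / 1600000)
    (p3 : wConst (2 * r) L m (2 / r) * (Λ * m) ≤ 1 / 800000) : False := by
  classical
  have hR : 0 < 2 * r := by omega
  obtain ⟨J, hJ⟩ := tail_small F Q hR hm T hfin (ε := 1 / 3200000) (by norm_num)
  have split := split_weight F Q hR hm hT J hJ
  obtain ⟨p, hp⟩ := Infinite.exists_notMem_finset J
  set A : Finset Sheet := J.sigma fun _ => univ with hA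
  set w : Sheet → Sheet → ℝ := mu F Q T with hw
  -- the mass of each sheet
  have mass : ∀ γ : Sheet, 89 / 100 ≤ ∑ a ∈ A, |w γ a| := by
    intro γ
    have a1 := avgPair_one F Q hR hm hT γ h0
    have a2 := split γ (fun _ => 1) (fun _ => by simp)
    simp only [one_mul] at a2
    have a3 : ∑ a ∈ A, w γ a ≤ ∑ a ∈ A, |w γ a| := sum_le_sum fun a _ => le_abs_self _
    rw [abs_le] at a1 a2
    linarith
  -- neighbouring sheets have neighbouring weights
  have move : ∀ (γ : Sheet) (i : Fin 4),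
      ∑ a ∈ A, |w γ a - w (mv i γ) (mv i a)| ≤ 1 / 320000 := by
    intro γ i
    set U := A.filter fun a => chi (2 * r) (mv i a) = chi (2 * r) (mv i γ)
    have hU : ∀ a ∈ U, chi (2 * r) (mv i a) = chi (2 * r) (mv i γ) := fun a ha =>
      (mem_filter.mp ha).2
    set σ : Sheet → ℝ := fun a => if 0 ≤ w γ a - w (mv i γ) (mv i a) then 1 else -1
    have hσ : ∀ a, |σ a| ≤ 1 := fun a => by simp only [σ]; split_ifs <;> norm_num
    set Ψ := psi r i U σ
    have hΨ := psi_le_one hr hU σ hσ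
    have m1 := avgPair_mv F Q hR hm hT γ i Ψ (c := 2 / r) (by positivity) hΨ
      (psi_lip hr hU σ hσ)
    have s1 := split γ Ψ hΨ
    have s2 := split (mv i γ) Ψ hΨ
    have e1 : ∑ a ∈ A, Ψ (some a) * w γ a = ∑ a ∈ A, σ a * w γ a := by
      refine sum_congr rfl fun a ha => ?_
      by_cases h : colour (2 * r) a = colour (2 * r) γ
      · show psi r i U σ (some a) * _ = _
        rw [(psi_fst hr hU σ (mem_filter.mpr ⟨ha, colour_mv h i⟩)).1]
      · simp [hw, mu, h]
    have e2 : ∑ a ∈ A, Ψ (some a) * w (mv i γ) a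
        = ∑ a ∈ A, σ a * w (mv i γ) (mv i a) := by
      have shift : ∑ a ∈ A, Ψ (some a) * w (mv i γ) a
          = ∑ a ∈ A, Ψ (some (mv i a)) * w (mv i γ) (mv i a) := by
        rw [hA, sum_sigma, sum_sigma]
        refine sum_congr rfl fun q _ => ?_
        exact (Equiv.sum_comp (step i)
          (fun v => Ψ (some ⟨q, v⟩) * w (mv i γ) ⟨q, v⟩)).symm
      rw [shift]
      refine sum_congr rfl fun a ha => ?_
      by_cases h : colour (2 * r) (mv i a) = colour (2 * r) (mv i γ)
      · show psi r i U σ (some (mv i a)) * _ = _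
        rw [(psi_fst hr hU σ (mem_filter.mpr ⟨ha, congrArg Prod.fst h⟩)).2]
      · simp [hw, mu, h]
    rw [e1] at s1
    rw [e2] at s2
    have e3 : ∑ a ∈ A, |w γ a - w (mv i γ) (mv i a)|
        = ∑ a ∈ A, σ a * w γ a - ∑ a ∈ A, σ a * w (mv i γ) (mv i a) := by
      rw [← sum_sub_distrib]
      refine sum_congr rfl fun a _ => ?_
      rw [← mul_sub]
      simp only [σ]
      split_ifs with h
      · rw [abs_of_nonneg h, one_mul]
      · rw [abs_of_neg (not_le.mp h)]; ring
    rw [e3]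
    rw [abs_le] at m1 s1 s2
    linarith
  -- the gap
  have per : ∀ q ∈ J, ∑ v : Tor p, ∑ u : Tor q, |w ⟨p, v⟩ ⟨q, u⟩|
      ≤ 20000 * ∑ i : Fin 4, ∑ v : Tor p, ∑ u : Tor q,
        |w ⟨p, v⟩ ⟨q, u⟩ - w (mv i ⟨p, v⟩) (mv i ⟨q, u⟩)| := by
    intro q hq
    have hne : p ≠ q := fun e => hp (e ▸ hq)
    have cop : (p : ℕ).Coprime q :=
      (Nat.coprime_primes p.2 q.2).mpr fun e => hne (Subtype.ext e)
    have := gap_half cop (fun v => |w ⟨p, v.1⟩ ⟨q, v.2⟩|) (fun v => abs_nonneg _)
      (univ.filter fun v => colour (2 * r) ⟨p, v.1⟩ = colour (2 * r) ⟨q, v.2⟩)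
      (fun v hv => by
        simp only [mem_filter, mem_univ, true_and] at hv
        simp [hw, mu, Ne.symm hv])
      (match_half hR p q)
    rw [Fintype.sum_prod_type] at this
    refine this.trans (mul_le_mul_of_nonneg_left (sum_le_sum fun i _ => ?_) (by norm_num))
    rw [Fintype.sum_prod_type]
    refine sum_le_sum fun v _ => sum_le_sum fun u _ => ?_
    rw [abs_sub_comm (w ⟨p, v⟩ ⟨q, u⟩)]
    exact abs_abs_sub_abs_le_abs_sub _ _
  have hA' : ∀ f : Sheet → ℝ, ∑ a ∈ A, f a = ∑ q ∈ J, ∑ u : Tor q, f ⟨q, u⟩ := fun f =>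
    sum_sigma J (fun _ => univ) f
  have lhs : (89 / 100) * (Fintype.card (Tor p) : ℝ) ≤ ∑ v : Tor p, ∑ a ∈ A, |w ⟨p, v⟩ a| := by
    refine le_trans (le_of_eq ?_) (sum_le_sum fun v _ => mass ⟨p, v⟩)
    rw [sum_const, card_univ, nsmul_eq_mul, mul_comm]
  have rhs : ∑ i : Fin 4, ∑ v : Tor p, ∑ a ∈ A,
      |w ⟨p, v⟩ a - w (mv i ⟨p, v⟩) (mv i a)| ≤ 4 * (Fintype.card (Tor p) * (1 / 320000)) := by
    refine (sum_le_sum fun i _ => sum_le_sum fun v _ => move ⟨p, v⟩ i).trans_eq ?_
    simp only [sum_const, card_univ, nsmul_eq_mul, Fintype.card_fin]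
    norm_num
  have glue : ∑ v : Tor p, ∑ a ∈ A, |w ⟨p, v⟩ a|
      ≤ 20000 * ∑ i : Fin 4, ∑ v : Tor p, ∑ a ∈ A,
        |w ⟨p, v⟩ a - w (mv i ⟨p, v⟩) (mv i a)| := by
    simp only [hA']
    rw [sum_comm]
    refine (sum_le_sum per).trans_eq ?_
    rw [← mul_sum, sum_comm]
    congr 1
    exact sum_congr rfl fun i _ => sum_comm
  have hpos : (0 : ℝ) < Fintype.card (Tor p) := by exact_mod_cast Fintype.card_pos
  linarith

end Vale.Agent.P090
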