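import Mathlib

/-!
# P090: the Lipschitz-free space of a pointed metric space
-/

open Set Filter
open scoped ENNReal NNReal

noncomputable section

namespace Vale.Agent.P090

/-- The range of a map spans a dense subspace of the closure of its span. -/
lemma span_codRestrict_dense {M V : Type*} [NormedAddCommGroup V] [NormedSpace ℝ V] (ev : M → V) :
    (Submodule.span ℝ (Set.range fun x =>
      (⟨ev x, Submodule.le_topologicalClosure _ (Submodule.subset_span (mem_range_self x))⟩ :
        (Submodule.span ℝ (Set.range ev)).topologicalClosure))).topologicalClosure = ⊤ := by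
  set W := (Submodule.span ℝ (Set.range ev)).topologicalClosure
  set δ := fun x => (⟨ev x, Submodule.le_topologicalClosure _
    (Submodule.subset_span (mem_range_self x))⟩ : W)
  refine eq_top_iff.2 fun w _ => ?_
  have hr : (Submodule.span ℝ (Set.range δ)).map W.subtype = Submodule.span ℝ (Set.range ev) := by
    rw [Submodule.map_span, ← Set.range_comp]
    rfl
  rw [← SetLike.mem_coe, Submodule.topologicalClosure_coe,
    Topology.IsInducing.subtypeVal.closure_eq_preimage_closure_image, Set.mem_preimage]
  have hw : (w : V) ∈ closure (Submodule.span ℝ (Set.range ev) : Set V) := by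
    rw [← Submodule.topologicalClosure_coe]
    exact w.2
  have hr' := SetLike.ext'_iff.1 hr
  rw [Submodule.map_coe] at hr'
  exact (congrArg closure hr').ge hw

/-- Existence of the free space of a pointed metric space, with its extension property. -/
theorem exists_free {M : Type} [MetricSpace M] (o : M) :
    ∃ (X : Type) (_ : NormedAddCommGroup X) (_ : NormedSpace ℝ X) (_ : CompleteSpace X) (δ : M → X),
      δ o = 0 ∧ Isometry δ ∧ (Submodule.span ℝ (Set.range δ)).topologicalClosure = ⊤ ∧
      ∀ f : M → ℝ, LipschitzWith 1 f → f o = 0 →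
        ∃ φ : X →L[ℝ] ℝ, ‖φ‖ ≤ 1 ∧ ∀ x, φ (δ x) = f x := by
  classical
  set B := {f : M → ℝ // LipschitzWith 1 f ∧ f o = 0}
  have hb : ∀ (g : B) (x y : M), |g.1 x - g.1 y| ≤ dist x y := fun g x y => by
    have h := g.2.1.dist_le_mul x y
    rwa [NNReal.coe_one, one_mul, Real.dist_eq] at h
  have hmem : ∀ x : M, Memℓp (fun g : B => g.1 x) ∞ := fun x => by
    refine memℓp_infty ⟨dist x o, ?_⟩
    rintro _ ⟨g, rfl⟩
    have h := hb g x o
    rwa [g.2.2, sub_zero] at h
  let ev : M → lp (fun _ : B => ℝ) ∞ := fun x => ⟨fun g => g.1 x, hmem x⟩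
  let W := (Submodule.span ℝ (Set.range ev)).topologicalClosure
  have hW : IsClosed (W : Set (lp (fun _ : B => ℝ) ∞)) := Submodule.isClosed_topologicalClosure _
  have : CompleteSpace W := hW.completeSpace_coe
  let δ : M → W := fun x =>
    ⟨ev x, Submodule.le_topologicalClosure _ (Submodule.subset_span (mem_range_self x))⟩
  refine ⟨W, inferInstance, inferInstance, inferInstance, δ, ?_, ?_, ?_, ?_⟩
  · refine Subtype.ext (Subtype.ext (funext fun g => ?_))
    exact g.2.2
  · refine Isometry.of_dist_eq fun x y => ?_
    show dist (ev x) (ev y) = dist x y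
    rw [dist_eq_norm]
    have hp : ∀ z : M, LipschitzWith 1 fun w => dist w y - dist z y := fun z => by
      refine LipschitzWith.of_dist_le_mul fun u v => ?_
      rw [NNReal.coe_one, one_mul, Real.dist_eq, sub_sub_sub_cancel_right]
      exact abs_dist_sub_le u v y
    refine le_antisymm (lp.norm_le_of_forall_le dist_nonneg fun g => ?_) ?_
    · rw [Real.norm_eq_abs]
      exact hb g x y
    · let g : B := ⟨fun w => dist w y - dist o y, hp o, sub_self _⟩
      have h := lp.norm_apply_le_norm ENNReal.top_ne_zero (ev x - ev y) g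
      rw [lp.coeFn_sub, Pi.sub_apply, Real.norm_eq_abs] at h
      have e : g.1 x - g.1 y = dist x y := by simp [g]
      rw [show (ev x : B → ℝ) g = g.1 x from rfl, show (ev y : B → ℝ) g = g.1 y from rfl, e,
        abs_of_nonneg dist_nonneg] at h
      exact h
  · exact span_codRestrict_dense ev
  · intro f hf hfo
    let g : B := ⟨f, hf, hfo⟩
    let φ : W →L[ℝ] ℝ := LinearMap.mkContinuous
      { toFun := fun w => ((w : lp (fun _ : B => ℝ) ∞) : B → ℝ) g
        map_add' := fun u v => by simp
        map_smul' := fun c u => by simp }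
      1 (fun w => by
        rw [one_mul]
        exact lp.norm_apply_le_norm ENNReal.top_ne_zero (w : lp (fun _ : B => ℝ) ∞) g)
    exact ⟨φ, LinearMap.mkContinuous_norm_le _ zero_le_one _, fun x => rfl⟩

end Vale.Agent.P090
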