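/-
P090: a uniformly discrete metric space whose free space fails the bounded approximation property.
-/
import Vale.Agent.P090.Core
import Vale.Agent.P090.Free

namespace Vale.Agent.P090

open Finset Function

/-- The inequalities wanted on one component for the bound `Λ`. -/
structure Good (Λ : ℝ) (r L m : ℕ) : Prop where
  hr : 2 ≤ r
  hL : 0 < L
  hm : 0 < m
  p1 : wConst (2 * r) L m 0 * (Λ * (m * (2 * r : ℕ)) + 1) ≤ 1 / 10
  p2 : Λ * ((8 * L + 4 * blocks (2 * r) + 1) / m) ≤ 1 / 1600000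
  p3 : wConst (2 * r) L m (2 / r) * (Λ * m) ≤ 1 / 800000

lemma good_arith {N r K : ℝ} (hN : 1 ≤ N) (hr : 4000000 * N ≤ r) (hK : 1 ≤ K) {L M : ℝ}
    (hL : L = 40 * N * r * K) (hM : M = 1600000 * N * (8 * L + 4 * K + 1)) :
    (K / L + 0) / M * (N * (M * (2 * r)) + 1) ≤ 1 / 10 ∧
      N * ((8 * L + 4 * K + 1) / M) ≤ 1 / 1600000 ∧
      (K / L + 2 / r) / M * (N * M) ≤ 1 / 800000 := by
  have hr0 : 0 < r := by linarith
  have hN0 : 0 < N := by linarith
  have hK0 : 0 < K := by linarith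
  have hLpos : 0 < L := by rw [hL]; positivity
  have hS : 1 ≤ 8 * L + 4 * K + 1 := by linarith
  have hM1 : 1 ≤ M := by
    rw [hM]
    exact one_le_mul_of_one_le_of_one_le (by linarith) hS
  have hMpos : 0 < M := by linarith
  refine ⟨?_, ?_, ?_⟩
  · have e : (K / L + 0) / M * (N * (M * (2 * r)) + 1) = 1 / 20 + 1 / (40 * N * r * M) := by
      rw [hL]; field_simp; ring
    have h1 : 1 ≤ N * r * M :=
      one_le_mul_of_one_le_of_one_le (one_le_mul_of_one_le_of_one_le hN (by linarith)) hM1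
    have h2 : 1 / (40 * N * r * M) ≤ 1 / 40 :=
      one_div_le_one_div_of_le (by norm_num) (by linarith)
    rw [e]
    linarith
  · refine le_of_eq ?_
    rw [hM]
    field_simp
  · have e : (K / L + 2 / r) / M * (N * M) = 1 / (40 * r) + 2 * N / r := by
      rw [hL]; field_simp
    rw [e]
    have h1 : 2 * N / r ≤ 1 / 2000000 := by
      rw [div_le_div_iff₀ hr0 (by norm_num)]; linarith
    have h2 : 1 / (40 * r) ≤ 1 / 4000000 :=
      one_div_le_one_div_of_le (by norm_num) (by linarith)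
    linarith

lemma good_of_large (N r : ℕ) (hN : 1 ≤ N) (hr : 4000000 * N ≤ r) :
    ∃ L m : ℕ, Good N r L m := by
  obtain ⟨K, hK, hKdef⟩ : ∃ K : ℕ, 1 ≤ K ∧ blocks (2 * r) = (K : ℝ) :=
    ⟨_, Fintype.card_pos, rfl⟩
  have hr0 : 0 < r := by omega
  obtain ⟨L, hLdef⟩ : ∃ L : ℕ, L = 40 * N * r * K := ⟨_, rfl⟩
  obtain ⟨m, hmdef⟩ : ∃ m : ℕ, m = 1600000 * N * (8 * L + 4 * K + 1) := ⟨_, rfl⟩
  obtain ⟨a1, a2, a3⟩ := good_arith (N := N) (r := r) (K := K) (L := L) (M := m)
    (by exact_mod_cast hN) (by exact_mod_cast hr) (by exact_mod_cast hK)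
    (by exact_mod_cast hLdef) (by exact_mod_cast hmdef)
  refine ⟨L, m, by omega, by rw [hLdef]; positivity, by rw [hmdef]; positivity, ?_, ?_, ?_⟩
  · rw [wConst, hKdef]; push_cast; exact a1
  · rw [hKdef]; exact a2
  · rw [wConst, hKdef]; exact a3

lemma good_exists (n : ℕ) : ∃ r L m : ℕ, Good (n + 1 : ℕ) r L m := by
  obtain ⟨L, m, h⟩ := good_of_large (n + 1) (4000000 * (n + 1)) (by omega) le_rfl
  exact ⟨_, L, m, h⟩

/-- A component of the glued space. -/
def place (P : Params) (n : ℕ) :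
    Place (Glued P) (none : Glued P) (P.R n) (P.L n) (P.m n) where
  ι a := some ⟨n, a⟩
  dist_eq a b := by rw [glued_dist, gdist_same]
  far a q hq := by
    rw [glued_dist, Nat.cast_le]
    rcases q with _ | ⟨k, b⟩
    · exact le_refl (P.rad n)
    · by_cases h : n = k
      · subst h; exact absurd ⟨b, rfl⟩ hq
      · rw [gdist_diff P h]; exact Nat.le_add_right _ _
  base := by rintro ⟨a, h⟩; exact Option.some_ne_none _ h

/-- Some uniformly discrete space has a free space without bounded approximation. -/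
theorem free_fails_bap :
    ∃ (M : Type) (_ : MetricSpace M) (o : M),
      Countable M ∧ (∀ a b : M, a ≠ b → 1 ≤ dist a b) ∧
      (∃ (X : Type) (_ : NormedAddCommGroup X) (_ : NormedSpace ℝ X) (_ : CompleteSpace X)
        (δ : M → X), δ o = 0 ∧ Isometry δ ∧
          (Submodule.span ℝ (Set.range δ)).topologicalClosure = ⊤ ∧
          ∀ f : M → ℝ, LipschitzWith 1 f → f o = 0 →
            ∃ φ : X →L[ℝ] ℝ, ‖φ‖ ≤ 1 ∧ ∀ x, φ (δ x) = f x) ∧
      ∀ (X : Type) [NormedAddCommGroup X] [NormedSpace ℝ X] (δ : M → X),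
        δ o = 0 → Isometry δ →
        (Submodule.span ℝ (Set.range δ)).topologicalClosure = ⊤ →
        (∀ f : M → ℝ, LipschitzWith 1 f → f o = 0 →
          ∃ φ : X →L[ℝ] ℝ, ‖φ‖ ≤ 1 ∧ ∀ x, φ (δ x) = f x) →
        ¬ ∃ c : ℝ, ∀ C : Set X, IsCompact C → ∀ ε : ℝ, 0 < ε →
          ∃ T : X →L[ℝ] X, FiniteDimensional ℝ (LinearMap.range (T : X →ₗ[ℝ] X)) ∧
            ‖T‖ ≤ c ∧ ∀ u ∈ C, ‖T u - u‖ < ε := by
  choose r L m hg using good_exists
  let P : Params := ⟨fun n => 2 * r n, L, m, fun n => by have := (hg n).hr; omega,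
    fun n => (hg n).hL, fun n => (hg n).hm⟩
  haveI hne : ∀ n, NeZero (P.L n) := fun n => ⟨(P.Lpos n).ne'⟩
  haveI : ∀ n, Countable (Comp (P.R n) (P.L n) (P.m n)) := fun n => inferInstance
  refine ⟨Glued P, gluedMetric P, none, inferInstance, fun a b h => glued_one_le P h,
    exists_free (none : Glued P), ?_⟩
  intro X _ _ δ h0 hiso hd hext
  rintro ⟨c, hc⟩
  let n := ⌈c⌉₊
  let F : Frame (Glued P) X := ⟨none, δ, h0, hiso, hd, hext⟩
  haveI : NeZero (L n) := hne n
  let Q : Place (Glued P) F.o (2 * r n) (L n) (m n) := place P n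
  obtain ⟨T, hfin, hT, hclose⟩ := hc
    (Set.range fun x : Pos (2 * r n) (L n) (m n) => δ (Q.ι (x, none)))
    (Set.finite_range _).isCompact 1 one_pos
  have hc' : c ≤ ((n + 1 : ℕ) : ℝ) := by
    push_cast
    have := Nat.le_ceil c
    linarith
  exact core F Q (hg n).hr (hg n).hm (hT.trans hc') hfin
    (fun x => (hclose _ ⟨x, rfl⟩).le) (hg n).p1 (hg n).p2 (hg n).p3

end Vale.Agent.P090
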